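import Vale.Agent.P237.J4.Four
import Vale.Agent.P237.Alm.Final

set_option linter.all false

/-!
# P237: dimension four and the resulting constant in all dimensions
-/

open MeasureTheory Metric Set Module

namespace Vale.Agent.P237.J4

open AllN Alm

theorem cst_four : cst 4 * (3 * Real.pi / 8) = 1 := by
  unfold cst
  have h : (8 * ((4 : ℕ) : ℝ) / (3 * (((4 : ℕ) : ℝ) - 1) * (((4 : ℕ) : ℝ) - 2))) = (4 / 3) ^ 2 := by
    push_cast; norm_num
  rw [show 4 - 3 = 1 by omega, aInt_one, h, Real.sqrt_sq (by norm_num)]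
  have := Real.pi_pos
  field_simp
  norm_num

theorem pettyC_cst4 {n : ℕ} (hn : 4 ≤ n) : PettyC n (cst n * (3 * Real.pi / 8)) := by
  induction n, hn using Nat.le_induction with
  | base => rw [cst_four]; exact pettyC_one_of pettyIneq_four
  | succ m hm ih =>
    rw [← del_mul_cst (by omega : 3 ≤ m), mul_assoc]
    have h0 : 0 ≤ cst m * (3 * Real.pi / 8) :=
      mul_nonneg (cst_nonneg m) (by have := Real.pi_pos; positivity)
    exact step (by omega : 3 ≤ m) h0 ih

theorem le_cst4 {n : ℕ} (hn : 4 ≤ n) : Real.sqrt (3 * Real.pi) / 4 ≤ cst n * (3 * Real.pi / 8) := by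
  have h := le_cst (by omega : 3 ≤ n)
  have hpi := Real.pi_pos
  have h2 : Real.sqrt (3 * Real.pi) / 4 = 2 / Real.sqrt (3 * Real.pi) * (3 * Real.pi / 8) := by
    have h3 : 0 < Real.sqrt (3 * Real.pi) := Real.sqrt_pos.2 (by positivity)
    have h4 : Real.sqrt (3 * Real.pi) ^ 2 = 3 * Real.pi := Real.sq_sqrt (by positivity)
    field_simp
    linarith
  rw [h2]
  exact mul_le_mul_of_nonneg_right h (by positivity)

theorem pettyC_all4 {n : ℕ} (hn : 4 ≤ n) : PettyC n (Real.sqrt (3 * Real.pi) / 4) := by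
  intro W _ _ _ _ _ hd S hS
  have h := pettyC_cst4 hn W hd S hS
  have hR := Alm.RC_pos (m := n) (by omega)
  have hv := (Main.vol_pos hS).le
  refine le_trans ?_ h
  exact mul_le_mul_of_nonneg_right (mul_le_mul_of_nonneg_right (le_cst4 hn) hR.le) (by positivity)

end Vale.Agent.P237.J4

namespace Vale.Agent.P237.Statement

variable {V : Type} [NormedAddCommGroup V] [InnerProductSpace ℝ V] [FiniteDimensional ℝ V]
  [MeasurableSpace V] [BorelSpace V]

/-- Petty's inequality up to the factor `√(3π)/4` in every dimension `n ≥ 4`. -/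
theorem almost_petty4 {n : ℕ} (hn : 4 ≤ n) (hd : finrank ℝ V = n) {K L : Set V}
    (hK : IsConvexBody K) (hL : IsProjectionBody K L) :
    Real.sqrt (3 * Real.pi) / 4 *
      (kappa (n - 1) ^ n * kappa n ^ (2 - (n : ℤ)) * vol K ^ (n - 1)) ≤ vol L := by
  have hK' : IsBody K := ⟨hK.1, hK.2.1, hK.2.2⟩
  obtain rfl := (isProjectionBody_iff hK).1 hL
  have h := J4.pettyC_all4 hn V hd K hK'
  rw [← mul_assoc]
  exact h

end Vale.Agent.P237.Statement
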