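import Vale.Agent.P100.Cert.PolyEx

set_option linter.all false

/-!
# P237, dimension four: kernel-checked polynomial certificates
-/

namespace Vale.Agent.P237.J4

open _root_.P100.BoxPos _root_.P100.BoxPos.Ex

/-- powers of expressions -/
def pw (a : Ex) : ℕ → Ex
  | 0 => .poly [[1]]
  | n + 1 => .mul (pw a n) a

theorem ev_pw (x y : ℝ) (a : Ex) : ∀ n : ℕ, Ex.ev x y (pw a n) = Ex.ev x y a ^ n
  | 0 => by simp only [pw, ev, ev2, ev1, Int.cast_one, mul_zero, add_zero, pow_zero]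
  | n + 1 => by simp only [pw, Ex.ev, ev_pw x y a n, pow_succ]

/-- integer constants -/
def ci (c : ℤ) : Ex := .poly [[c]]

theorem ev_ci (x y : ℝ) (c : ℤ) : Ex.ev x y (ci c) = c := by simp [ci, Ex.ev, ev2, ev1]

/-- first variable -/
def xE : Ex := .poly [[0, 1]]

/-- second variable -/
def yE : Ex := .poly [[], [1]]

theorem ev_xE (x y : ℝ) : Ex.ev x y xE = x := by simp [xE, Ex.ev, ev2, ev1]

theorem ev_yE (x y : ℝ) : Ex.ev x y yE = y := by simp [yE, Ex.ev, ev2, ev1]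

theorem ev2_one (x y : ℝ) : ev2 x y [[1]] = 1 := by simp [ev2, ev1]

def lI : List (List ℤ) := [[38166, 549000, -2111004, 4030200, -7334740, 9378000, -9055960, 9318000, -6631125, 3753000, 121766, 207000, -298219, -124800], [0, -249600, 520000, 194400, -580720, 1896000, -4342160, 1776000, 5200000, -360000, -3761440, -933600, 520000, -249600], [0, -124800, 260000, -1470000, 3425540, -7045200, 10842160, -13596000, -5566260, -11220000, 3471080, -3106800, 3731080, 342000, -260000, 124800], [0, 0, 0, 249600, -520000, 5445600, -5780720, 18408000, 4342160, 25296000, 13884320, 16152000, -8961440, 4317600, -520000, 249600], [0, 0, 0, 124800, -733922, -1884000, 3182008, -17935200, 10983940, -43512000, -19261540, -43512000, 8598400, -17935200, 3182008, -1884000, 61258, 124800], [0, 0, 0, 0, 0, 249600, -520000, 4317600, -2600000, 16152000, 32968640, 25296000, 23426480, 18408000, 580720, 5445600, -520000, 249600], [0, 0, 0, 0, 0,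 124800, -260000, 342000, -1040000, -3106800, -15613240, -11220000, -34192740, -13596000, -8242160, -7045200, -1345540, -1470000, 260000, -124800], [0, 0, 0, 0, 0, 0, 0, -249600, 520000, -933600, 2600000, -360000, 24284320, 1776000, 14742160, 1896000, 5780720, 194400, 520000, -249600], [0, 0, 0, 0, 0, 0, 0, -124800, 496961, 207000, 121766, 3753000, -11402205, 9318000, -15417400, 9378000, -9720280, 4030200, -2111004, 549000, 38166]]

theorem lI_chk1 : boxCheck 90 20 8 lI 0 3 4 0 1 1 = true := by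
  (clear * -; decide +kernel)

def lIIa : List (List ℤ) := [[26506, -88200, 159036, -347000, 477108, -581200, 742168, -543600, 437349, -290600, 238554, -69400, -13253], [0, 0, 0, 112800, -212048, 376000, -636144, 451200, 0, 225600, -424096, 37600], [0, 0, 0, -56400, 159036, -394800, 636144, -864800, -371084, -789600, 318072, -282000, 318072, -18800], [0, 0, 0, 0, 0, 263200, -212048, 977600, 636144, 1353600, 1272288, 827200, -424096, 188000], [0, 0, 0, 0, -79518, 82400, -318072, -39200, -1113252, -529600, -3975900, -529600, -1272288, -39200, -318072, 82400, -26506], [0, 0, 0, 0, 0, 0, 0, 188000, 0, 827200, 2544576, 1353600, 1908432, 977600, 212048, 263200], [0, 0, 0, 0, 0, 0, 0, -18800, 0, -282000, -954216, -789600, -2279516, -864800, -636144, -394800, -159036, -56400], [0, 0, 0, 0, 0, 0, 0, 0, 0, 37600, 0, 225600, 1272288, 451200, 636144, 376000, 212048, 112800], [0, 0, 0, 0, 0, 0, 0, 0, 39759, -69400, 238554, -290600,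 119277, -543600, 318072, -581200, 318072, -347000, 159036, -88200, 26506]]

theorem lIIa_chk1 : boxCheck 115 20 8 lIIa 3 4 4 0 7 8 = true := by
  (clear * -; decide +kernel)

def lIIb : List (List ℤ) := [[26506, -35188, 62154, -131104, 20216, -82864, 26104, 285472, 173756, 544840, 173756, 285472, 26104, -82864, 20216, -131104, 62154, -35188, 26506], [-88200, 229872, -641928, 948432, -1029168, 1515408, 243408, 243408, 1847808, -2605200, 1584000, -2869008, 207792, 207792, -867408, 1677168, -938232, 652128, -318072], [159036, -928200, 2385540, -4477200, 7633728, -7359600, 6361440, -1563600, -8587944, 12652800, -18130104, 16558800, -6361440, 486000, 7633728, -10518000, 7156620, -4851000, 1749396], [-347000, 2043384, -6399184, 15517248, -25593248, 33757096, -33588296, 12065424, 19492576, -54162424, 81445224, -71584992, 40084992, -2022376, -35626424, 44002320, -33637320, 20384320, -5831320], [477108, -3484216, 14125052, -35310288,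 66912382, -99812076, 102653966, -55735856, -38415946, 162318948, -241850906, 224390064, -132500374, -4878916, 113154618, -134547120, 104730030, -55346940, 13120470], [-581200, 5560464, -22767392, 63652576, -134211616, 207090320, -227098288, 142071712, 77905408, -357768080, 529732304, -500921056, 272562336, 51016240, -268499472, 304822368, -225300528, 103726656, -20992752], [742168, -6322672, 29743696, -92858624, 202783504, -324736384, 373361864, -226032544, -156332064, 605795648, -872571368, 790358784, -356134416, -172118016, 482766648, -507563616, 343340424, -138714576, 24491544], [-543600, 6216792, -32376360, 104831808, -240503360, 400665376, -445803552, 216723280, 270142352, -790607288, 1057074104, -858803760, 268718000, 336562112, -644808192, 613977120, -374541840, 134069760, -20992752], [437349, -5013894, 28135173, -99480608, 234380958, -365241172, 343734262, -80880176, -350884933, 758000638, -893587397, 611394512,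 -62528772, -419878904, 621283764, -530997120, 291281670, -93275820, 13120470], [-290600, 3995644, -23555708, 77263288, -155084488, 193102112, -123470560, -58536696, 297758456, -488723484, 492683348, -261656944, -77832496, 339409696, -416316128, 319420720, -158005080, 45670240, -5831320], [238554, -2634232, 11929286, -29247216, 41590380, -29806192, -10757956, 72944912, -145466674, 193301744, -166010478, 56547984, 79761440, -172561936, 183394296, -126911664, 56903724, -14965368, 1749396], [-69400, 465564, -1085876, 273504, 4020224, -10774608, 17612784, -26356416, 38503344, -45295124, 33844260, -3699856, -30376656, 50275624, -47675400, 29949648, -12244392, 2950848, -318072], [-13253, 132530, -596385, 1590360, -2809636, 3604816, -3975900, 4771080, -6136139, 6546982, -4386743, 0, 4373490, -6414452, 5539754, -3180720, 1192770, -265060, 26506]]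

theorem lIIb_chk1 : boxCheck 112 18 12 lIIb 5 8 8 0 1 1 = true := by
  (clear * -; decide +kernel)

def lIIIa : List (List ℤ) := [[159036, 0, 0, 0, -954216, 0, 0, 0, 583132], [-555200, 0, -300800, 0, 508800, 0, -300800, 0, -555200], [477108, 300800, 954216, 902400, 318072, 902400, -318072, 300800, -159036], [75200, -636144, -300800, -636144, -752000, 212048, -300800, 212048, 75200], [-119277, 0, -477108, 0, -715662, 0, -477108, 0, -119277], [0, 318072, 0, 954216, 0, 954216, 0, 318072], [0, 0, -212048, 0, -424096, 0, -212048]]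

theorem lIIIa_chk1 : boxCheck 85 8 6 lIIIa 0 7 20 5 8 5 = true := by
  (clear * -; decide +kernel)

def lIIIb : List (List ℤ) := [[-13253, 123894, 791161, -1930372, 66163, -1626902, -457319, 7640264, 1239065, 1765866, 914355, -3626756, -57031, 123894, -13253], [0, -451200, 0, 2937600, 0, 451200, 0, -5875200, 0, 451200, 0, 2937600, 0, -451200], [79518, 292164, -2254206, 3163448, -3754618, 2390588, 3108378, -6050544, 8197530, -7787716, 3879110, -1925704, 290370, 292164, 79518], [-53012, 61648, 1290756, -4117664, 4927724, -2034384, -3916380, 11075392, -14094684, 11536688, -6946964, 2667872, -405628, 61648, -53012], [-119277, 715662, -2266263, 5248188, -9661437, 14551794, -18487935, 20038536, -18487935, 14551794, -9661437, 5248188, -2266263, 715662, -119277], [159036, -1272288, 4930116, -12722880, 24968652, -39440928, 51368628, -55980672, 51368628, -39440928, 24968652, -12722880, 4930116, -1272288, 159036], [-53012, 530120,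 -2491564, 7421680, -15956612, 26612024, -35783100, 39440928, -35783100, 26612024, -15956612, 7421680, -2491564, 530120, -53012]]

theorem lIIIb_chk1 : boxCheck 122 14 6 lIIIb 14 27 40 0 1 2 = true := by
  (clear * -; decide +kernel)

theorem lIIIb_chk2 : boxCheck 125 14 6 lIIIb 27 41 40 0 1 2 = true := by
  (clear * -; decide +kernel)

theorem lIIIb_chk3 : boxCheck 114 14 6 lIIIb 7 21 20 1 3 2 = true := by
  (clear * -; decide +kernel)

/-- expression for `lI` -/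
def fI : Ex := (.add (.sub (.sub (.sub (.sub (.add (.sub (.sub (.mul (ci 397590) (.add (.mul (pw (.add (ci 1) (.mul xE xE)) 6) (pw (.sub (ci 1) (pw (.mul xE yE) 4)) 2)) (.mul (.mul (.mul (pw (.sub xE (.mul xE yE)) 3) (.mul xE (.add (.sub (ci 3) (.mul xE xE)) (.mul (.sub (ci 1) (.mul (.mul (ci 3) xE) xE)) yE)))) (pw (.add (ci 1) (.mul xE xE)) 3)) (.sub (ci 1) (pw (.mul xE yE) 4))))) (.mul (ci 198795) (pw (.mul (pw (.sub xE (.mul xE yE)) 3) (.mul xE (.add (.sub (ci 3) (.mul xE xE)) (.mul (.sub (ci 1) (.mul (.mul (ci 3) xE) xE)) yE)))) 2))) (.mul (.mul (.mul (ci 900000) xE) (pw (.add (ci 1) (.mul xE xE)) 5)) (pw (.sub (ci 1) (pw (.mul xE yE) 4)) 2))) (.mul (.mul (.mul (ci 564000) (pw xE 3)) (pw (.add (ci 1) (.mul xE xE)) 3)) (pw (.sub (ci 1) (pw (.mul xE yE) 4)) 2))) (.mul (.mul (.mul (.mul (ci 423000) xE) (pw (.sub (ci 1) (.mul xE xE)) 2)) (pw (.add (ci 1) (.mul xE xE)) 3)) (pw (.sub (ci 1) (pw (.mul xE yE) 4)) 2))) (.mul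 (.mul (.mul (.mul (.mul (.mul (ci 846000) xE) (.sub (ci 1) (.mul xE xE))) (pw (.sub xE (.mul xE yE)) 2)) (pw (.add (ci 1) (.mul xE xE)) 3)) (.sub (ci 1) (pw (.mul xE yE) 4))) (.add (ci 1) (.mul (.mul xE yE) (.mul xE yE))))) (.mul (.mul (.mul (.mul (ci 564000) xE) (pw (.sub xE (.mul xE yE)) 4)) (pw (.add (ci 1) (.mul xE xE)) 3)) (pw (.add (ci 1) (.mul (.mul xE yE) (.mul xE yE))) 2))) (.mul (.mul (.mul (ci 2496) (pw (.sub (.mul (ci 12) (.add (ci 1) (.mul xE xE))) (.mul (ci 25) xE)) 2)) (pw (.add (ci 1) (.mul xE xE)) 4)) (pw (.sub (ci 1) (pw (.mul xE yE) 4)) 2))) (.mul (.mul (.mul (.mul (.mul (.mul (ci 10400) (.sub (.mul (ci 12) (.add (ci 1) (.mul xE xE))) (.mul (ci 25) xE))) (.sub xE (.mul xE yE))) (.add (.sub (ci 3) (.mul xE xE)) (.mul (.sub (ci 1) (.mul (.mul (ci 3) xE) xE)) yE))) (pw (.add (ci 1) (.mul xE xE)) 4)) (.sub (ci 1) (pw (.mul xE yE) 4))) (.sub (ci 1) (.mul (.mul xE yE) (.mul xE yE)))))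

theorem fI_id : isZero 33 (.sub fI (.mul (.poly [[1]]) (.poly lI))) = true := by
  (clear * -; decide +kernel)

theorem fI_ev (x y : ℝ) : 397590 * ((1 + x * x) ^ 6 * (1 - (x * y) ^ 4) ^ 2 + (x - x * y) ^ 3 * (x * (3 - x * x + (1 - 3 * x * x) * y)) * (1 + x * x) ^ 3 * (1 - (x * y) ^ 4)) - 198795 * ((x - x * y) ^ 3 * (x * (3 - x * x + (1 - 3 * x * x) * y))) ^ 2 - 900000 * x * (1 + x * x) ^ 5 * (1 - (x * y) ^ 4) ^ 2 + 564000 * x ^ 3 * (1 + x * x) ^ 3 * (1 - (x * y) ^ 4) ^ 2 - 423000 * x * (1 - x * x) ^ 2 * (1 + x * x) ^ 3 * (1 - (x * y) ^ 4) ^ 2 - 846000 * x * (1 - x * x) * (x - x * y) ^ 2 * (1 + x * x) ^ 3 * (1 - (x * y) ^ 4) * (1 + x * y * (x * y)) - 564000 * x * (x - x * y) ^ 4 * (1 + x * x) ^ 3 * (1 + x * y * (x * y)) ^ 2 - 2496 * (12 * (1 + x * x) - 25 * x) ^ 2 * (1 + x * x) ^ 4 * (1 - (x * y) ^ 4) ^ 2 + 10400 * (12 * (1 + x * x) - 25 * x) * (x - x * y) * (3 - x * x + (1 - 3 * x * x) * y) * (1 + x * x) ^ 4 * (1 - (x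 * y) ^ 4) * (1 - x * y * (x * y)) = ev2 x y lI := by
  have h := Ex.eq_of_isZero fI_id x y
  simp only [fI, Ex.ev, ev_pw, ev_ci, ev_xE, ev_yE] at h
  rw [ev2_one, one_mul] at h
  push_cast at h
  exact h

/-- expression for `lIIa` -/
def fIIa : Ex := (.sub (.sub (.sub (.add (.sub (.sub (.mul (ci 26506) (.add (.mul (pw (.add (ci 1) (.mul xE xE)) 6) (pw (.sub (ci 1) (pw (.mul xE yE) 4)) 2)) (.mul (.mul (.mul (pw (.sub xE (.mul xE yE)) 3) (.mul xE (.add (.sub (ci 3) (.mul xE xE)) (.mul (.sub (ci 1) (.mul (.mul (ci 3) xE) xE)) yE)))) (pw (.add (ci 1) (.mul xE xE)) 3)) (.sub (ci 1) (pw (.mul xE yE) 4))))) (.mul (ci 13253) (pw (.mul (pw (.sub xE (.mul xE yE)) 3) (.mul xE (.add (.sub (ci 3) (.mul xE xE)) (.mul (.sub (ci 1) (.mul (.mul (ci 3) xE) xE)) yE)))) 2))) (.mul (.mul (.mul (ci 60000) xE) (pw (.add (ci 1) (.mul xE xE)) 5)) (pw (.sub (ci 1) (pw (.mul xE yE) 4)) 2))) (.mul (.mul (.mul (ci 37600) (pw xE 3)) (pw (.add (ci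 1) (.mul xE xE)) 3)) (pw (.sub (ci 1) (pw (.mul xE yE) 4)) 2))) (.mul (.mul (.mul (.mul (ci 28200) xE) (pw (.sub (ci 1) (.mul xE xE)) 2)) (pw (.add (ci 1) (.mul xE xE)) 3)) (pw (.sub (ci 1) (pw (.mul xE yE) 4)) 2))) (.mul (.mul (.mul (.mul (.mul (.mul (ci 56400) xE) (.sub (ci 1) (.mul xE xE))) (pw (.sub xE (.mul xE yE)) 2)) (pw (.add (ci 1) (.mul xE xE)) 3)) (.sub (ci 1) (pw (.mul xE yE) 4))) (.add (ci 1) (.mul (.mul xE yE) (.mul xE yE))))) (.mul (.mul (.mul (.mul (ci 37600) xE) (pw (.sub xE (.mul xE yE)) 4)) (pw (.add (ci 1) (.mul xE xE)) 3)) (pw (.add (ci 1) (.mul (.mul xE yE) (.mul xE yE))) 2)))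

theorem fIIa_id : isZero 29 (.sub fIIa (.mul (.poly [[1]]) (.poly lIIa))) = true := by
  (clear * -; decide +kernel)

theorem fIIa_ev (x y : ℝ) : 26506 * ((1 + x * x) ^ 6 * (1 - (x * y) ^ 4) ^ 2 + (x - x * y) ^ 3 * (x * (3 - x * x + (1 - 3 * x * x) * y)) * (1 + x * x) ^ 3 * (1 - (x * y) ^ 4)) - 13253 * ((x - x * y) ^ 3 * (x * (3 - x * x + (1 - 3 * x * x) * y))) ^ 2 - 60000 * x * (1 + x * x) ^ 5 * (1 - (x * y) ^ 4) ^ 2 + 37600 * x ^ 3 * (1 + x * x) ^ 3 * (1 - (x * y) ^ 4) ^ 2 - 28200 * x * (1 - x * x) ^ 2 * (1 + x * x) ^ 3 * (1 - (x * y) ^ 4) ^ 2 - 56400 * x * (1 - x * x) * (x - x * y) ^ 2 * (1 + x * x) ^ 3 * (1 - (x * y) ^ 4) * (1 + x * y * (x * y)) - 37600 * x * (x - x * y) ^ 4 * (1 + x * x) ^ 3 * (1 + x * y * (x * y)) ^ 2 = ev2 x y lIIa := by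
  have h := Ex.eq_of_isZero fIIa_id x y
  simp only [fIIa, Ex.ev, ev_pw, ev_ci, ev_xE, ev_yE] at h
  rw [ev2_one, one_mul] at h
  push_cast at h
  exact h

/-- expression for `lIIb` -/
def fIIb : Ex := (.sub (.sub (.sub (.add (.sub (.sub (.mul (ci 26506) (.add (.mul (.mul (pw (.add (ci 1) (.mul (.add xE (.mul yE (.sub (ci 1) xE))) (.add xE (.mul yE (.sub (ci 1) xE))))) 6) (pw (.add (ci 1) xE) 2)) (pw (.add (ci 1) (.mul xE xE)) 2)) (.mul (.mul (.mul (.mul (.mul (pw yE 3) (pw (.sub (ci 1) xE) 2)) (.add (.sub (.mul (ci 3) (.add xE (.mul yE (.sub (ci 1) xE)))) (pw (.add xE (.mul yE (.sub (ci 1) xE))) 3)) (.mul (.sub (ci 1) (.mul (.mul (ci 3) (.add xE (.mul yE (.sub (ci 1) xE)))) (.add xE (.mul yE (.sub (ci 1) xE))))) xE))) (pw (.add (ci 1) (.mul (.add xE (.mul yE (.sub (ci 1) xE))) (.add xE (.mul yE (.sub (ci 1) xE))))) 3)) (.add (ci 1) xE)) (.add (ci 1) (.mul xE xE))))) (.mul (.mul (.mul (ci 13253) (pw yE 6)) (pw (.sub (ci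 1) xE) 4)) (pw (.add (.sub (.mul (ci 3) (.add xE (.mul yE (.sub (ci 1) xE)))) (pw (.add xE (.mul yE (.sub (ci 1) xE))) 3)) (.mul (.sub (ci 1) (.mul (.mul (ci 3) (.add xE (.mul yE (.sub (ci 1) xE)))) (.add xE (.mul yE (.sub (ci 1) xE))))) xE)) 2))) (.mul (.mul (.mul (.mul (ci 60000) (.add xE (.mul yE (.sub (ci 1) xE)))) (pw (.add (ci 1) (.mul (.add xE (.mul yE (.sub (ci 1) xE))) (.add xE (.mul yE (.sub (ci 1) xE))))) 5)) (pw (.add (ci 1) xE) 2)) (pw (.add (ci 1) (.mul xE xE)) 2))) (.mul (.mul (.mul (.mul (ci 37600) (pw (.add xE (.mul yE (.sub (ci 1) xE))) 3)) (pw (.add (ci 1) (.mul (.add xE (.mul yE (.sub (ci 1) xE))) (.add xE (.mul yE (.sub (ci 1) xE))))) 3)) (pw (.add (ci 1) xE) 2)) (pw (.add (ci 1) (.mul xE xE)) 2))) (.mul (.mul (.mul (.mul (.mul (ci 28200) (.add xE (.mul yE (.sub (ci 1) xE)))) (pw (.sub (ci 1) (.mul (.add xE (.mul yE (.sub (ci 1) xE))) (.add xE (.mul yE (.sub (ci 1) xE))))) 2)) (pw (.add (ci 1) (.mul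 (.add xE (.mul yE (.sub (ci 1) xE))) (.add xE (.mul yE (.sub (ci 1) xE))))) 3)) (pw (.add (ci 1) xE) 2)) (pw (.add (ci 1) (.mul xE xE)) 2))) (.mul (.mul (.mul (.mul (.mul (.mul (.mul (ci 56400) (.add xE (.mul yE (.sub (ci 1) xE)))) (.sub (ci 1) (.mul (.add xE (.mul yE (.sub (ci 1) xE))) (.add xE (.mul yE (.sub (ci 1) xE)))))) (pw yE 2)) (.sub (ci 1) xE)) (pw (.add (ci 1) (.mul (.add xE (.mul yE (.sub (ci 1) xE))) (.add xE (.mul yE (.sub (ci 1) xE))))) 3)) (.add (ci 1) xE)) (pw (.add (ci 1) (.mul xE xE)) 2))) (.mul (.mul (.mul (.mul (.mul (ci 37600) (.add xE (.mul yE (.sub (ci 1) xE)))) (pw yE 4)) (pw (.sub (ci 1) xE) 2)) (pw (.add (ci 1) (.mul (.add xE (.mul yE (.sub (ci 1) xE))) (.add xE (.mul yE (.sub (ci 1) xE))))) 3)) (pw (.add (ci 1) (.mul xE xE)) 2)))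

theorem fIIb_id : isZero 41 (.sub fIIb (.mul (.poly [[1]]) (.poly lIIb))) = true := by
  (clear * -; decide +kernel)

theorem fIIb_ev (x y : ℝ) : 26506 * ((1 + (x + y * (1 - x)) * (x + y * (1 - x))) ^ 6 * (1 + x) ^ 2 * (1 + x * x) ^ 2 + y ^ 3 * (1 - x) ^ 2 * (3 * (x + y * (1 - x)) - (x + y * (1 - x)) ^ 3 + (1 - 3 * (x + y * (1 - x)) * (x + y * (1 - x))) * x) * (1 + (x + y * (1 - x)) * (x + y * (1 - x))) ^ 3 * (1 + x) * (1 + x * x)) - 13253 * y ^ 6 * (1 - x) ^ 4 * (3 * (x + y * (1 - x)) - (x + y * (1 - x)) ^ 3 + (1 - 3 * (x + y * (1 - x)) * (x + y * (1 - x))) * x) ^ 2 - 60000 * (x + y * (1 - x)) * (1 + (x + y * (1 - x)) * (x + y * (1 - x))) ^ 5 * (1 + x) ^ 2 * (1 + x * x) ^ 2 + 37600 * (x + y * (1 - x)) ^ 3 * (1 + (x + y * (1 - x)) * (x + y * (1 - x))) ^ 3 * (1 + x) ^ 2 * (1 + x * x) ^ 2 - 28200 * (x + y * (1 - x)) * (1 - (x + y * (1 - x)) * (x + y * (1 - x))) ^ 2 * (1 + (x + y * (1 - x)) * (x + y * (1 - x))) ^ 3 * (1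 + x) ^ 2 * (1 + x * x) ^ 2 - 56400 * (x + y * (1 - x)) * (1 - (x + y * (1 - x)) * (x + y * (1 - x))) * y ^ 2 * (1 - x) * (1 + (x + y * (1 - x)) * (x + y * (1 - x))) ^ 3 * (1 + x) * (1 + x * x) ^ 2 - 37600 * (x + y * (1 - x)) * y ^ 4 * (1 - x) ^ 2 * (1 + (x + y * (1 - x)) * (x + y * (1 - x))) ^ 3 * (1 + x * x) ^ 2 = ev2 x y lIIb := by
  have h := Ex.eq_of_isZero fIIb_id x y
  simp only [fIIb, Ex.ev, ev_pw, ev_ci, ev_xE, ev_yE] at h
  rw [ev2_one, one_mul] at h
  push_cast at h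
  exact h

/-- expression for `lIIIa` -/
def fIIIa : Ex := (.sub (.add (.sub (.add (.mul (ci 424096) (.mul (pw (.add (ci 1) (.mul xE xE)) 2) (pw (.sub (ci 1) (.mul xE xE)) 2))) (.mul (.mul (.mul (ci 106024) (.sub (.mul (.mul (pw yE 2) (.sub (.mul (ci 3) (.add (ci 1) (.mul xE xE))) (.mul (.mul (ci 4) yE) xE))) (.add (ci 1) (.mul xE xE))) (.mul (ci 2) (.add (ci 1) (pw xE 4))))) (.add (ci 1) (.mul xE xE))) (.sub (ci 1) (.mul xE xE)))) (.mul (ci 13253) (pw (.sub (.mul (.mul (pw yE 2) (.sub (.mul (ci 3) (.add (ci 1) (.mul xE xE))) (.mul (.mul (ci 4) yE) xE))) (.add (ci 1) (.mul xE xE))) (.mul (ci 2) (.add (ci 1) (pw xE 4)))) 2))) (.mul (.mul (.sub (.mul (ci 75200) (pw yE 3)) (.mul (ci 480000) yE)) (pw (.add (ci 1) (.mul xE xE)) 2)) (pw (.sub (ci 1) (.mul xE xE)) 2))) (.mul (.mul (.mul (ci 75200) yE) (pw (.sub (.add (ci 1) (.mul xE xE)) (.mul (.mul (ci 2) xE) yE)) 2)) (pw (.add (ci 1) (.mul xE xE)) 2)))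

theorem fIIIa_id : isZero 27 (.sub fIIIa (.mul (.poly [[1]]) (.poly lIIIa))) = true := by
  (clear * -; decide +kernel)

theorem fIIIa_ev (x y : ℝ) : 424096 * ((1 + x * x) ^ 2 * (1 - x * x) ^ 2) + 106024 * (y ^ 2 * (3 * (1 + x * x) - 4 * y * x) * (1 + x * x) - 2 * (1 + x ^ 4)) * (1 + x * x) * (1 - x * x) - 13253 * (y ^ 2 * (3 * (1 + x * x) - 4 * y * x) * (1 + x * x) - 2 * (1 + x ^ 4)) ^ 2 + (75200 * y ^ 3 - 480000 * y) * (1 + x * x) ^ 2 * (1 - x * x) ^ 2 - 75200 * y * (1 + x * x - 2 * x * y) ^ 2 * (1 + x * x) ^ 2 = ev2 x y lIIIa := by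
  have h := Ex.eq_of_isZero fIIIa_id x y
  simp only [fIIIa, Ex.ev, ev_pw, ev_ci, ev_xE, ev_yE] at h
  rw [ev2_one, one_mul] at h
  push_cast at h
  exact h

/-- expression for `lIIIb` -/
def fIIIb : Ex := (.sub (.add (.sub (.sub (.add (.mul (ci 6785536) (.mul (.mul (pw xE 4) (pw (.add (ci 1) (.mul xE xE)) 2)) (pw (.add (ci 1) xE) 2))) (.mul (.mul (.mul (.mul (.mul (ci 424096) (pw xE 2)) (.add (ci 1) (.mul xE xE))) (.add (ci 1) xE)) (pw (.sub (ci 1) xE) 3)) (.sub (.add (.add (.mul (ci 4) (.mul xE xE)) (.mul (.mul (.mul (ci 12) (.add (ci 1) (.mul xE xE))) xE) (.sub (ci 1) yE))) (.mul (.mul (.mul (ci 3) (.add (ci 1) (.mul xE xE))) (.sub (.add (ci 1) (.mul xE xE)) (.mul (ci 4) xE))) (pw (.sub (ci 1) yE) 2))) (.mul (.mul (.mul (ci 2) (.add (ci 1) (.mul xE xE))) (pw (.sub (ci 1) xE) 2)) (pw (.sub (ci 1) yE) 3))))) (.mul (.mul (ci 13253) (pw (.sub (ci 1) xE) 6)) (pw (.sub (.add (.add (.mul (ci 4) (.mul xE xE)) (.mul (.mul (.mul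 (ci 12) (.add (ci 1) (.mul xE xE))) xE) (.sub (ci 1) yE))) (.mul (.mul (.mul (ci 3) (.add (ci 1) (.mul xE xE))) (.sub (.add (ci 1) (.mul xE xE)) (.mul (ci 4) xE))) (pw (.sub (ci 1) yE) 2))) (.mul (.mul (.mul (ci 2) (.add (ci 1) (.mul xE xE))) (pw (.sub (ci 1) xE) 2)) (pw (.sub (ci 1) yE) 3))) 2))) (.mul (.mul (.mul (.mul (ci 3840000) (pw xE 3)) (.add (.mul (.mul (ci 2) xE) yE) (.mul (.sub (ci 1) yE) (.add (ci 1) (.mul xE xE))))) (pw (.add (ci 1) (.mul xE xE)) 2)) (pw (.add (ci 1) xE) 2))) (.mul (.mul (.mul (.mul (ci 150400) xE) (pw (.add (.mul (.mul (ci 2) xE) yE) (.mul (.sub (ci 1) yE) (.add (ci 1) (.mul xE xE)))) 3)) (pw (.add (ci 1) (.mul xE xE)) 2)) (pw (.add (ci 1) xE) 2))) (.mul (.mul (.mul (.mul (.mul (ci 601600) (pw xE 3)) (.add (.mul (.mul (ci 2) xE) yE) (.mul (.sub (ci 1) yE) (.add (ci 1) (.mul xE xE))))) (pw (.sub (ci 1) xE) 2)) (pw yE 2)) (pw (.add (ci 1) (.mul xE xE)) 2)))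

theorem fIIIb_id : isZero 38 (.sub fIIIb (.mul (.poly [[1]]) (.poly lIIIb))) = true := by
  (clear * -; decide +kernel)

theorem fIIIb_ev (x y : ℝ) : 6785536 * (x ^ 4 * (1 + x * x) ^ 2 * (1 + x) ^ 2) + 424096 * x ^ 2 * (1 + x * x) * (1 + x) * (1 - x) ^ 3 * (4 * (x * x) + 12 * (1 + x * x) * x * (1 - y) + 3 * (1 + x * x) * (1 + x * x - 4 * x) * (1 - y) ^ 2 - 2 * (1 + x * x) * (1 - x) ^ 2 * (1 - y) ^ 3) - 13253 * (1 - x) ^ 6 * (4 * (x * x) + 12 * (1 + x * x) * x * (1 - y) + 3 * (1 + x * x) * (1 + x * x - 4 * x) * (1 - y) ^ 2 - 2 * (1 + x * x) * (1 - x) ^ 2 * (1 - y) ^ 3) ^ 2 - 3840000 * x ^ 3 * (2 * x * y + (1 - y) * (1 + x * x)) * (1 + x * x) ^ 2 * (1 + x) ^ 2 + 150400 * x * (2 * x * y + (1 - y) * (1 + x * x)) ^ 3 * (1 + x * x) ^ 2 * (1 + x) ^ 2 - 601600 * x ^ 3 * (2 * x * y + (1 - y) * (1 + x * x)) * (1 - x) ^ 2 * y ^ 2 * (1 + x * x) ^ 2 = ev2 x y lIIIb := by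
  have h := Ex.eq_of_isZero fIIIb_id x y
  simp only [fIIIb, Ex.ev, ev_pw, ev_ci, ev_xE, ev_yE] at h
  rw [ev2_one, one_mul] at h
  push_cast at h
  exact h

end Vale.Agent.P237.J4
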