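import Vale.Agent.P237.OneD
import Vale.Agent.P237.AllN.DefsN

set_option linter.all false

/-!
# P237: the level function of a half profile
-/

open Real MeasureTheory Set

namespace Vale.Agent.P237.J4

/-- A half profile: concave, decreasing, above the circle. -/
structure IsHalf (p : ℝ → ℝ) : Prop where
  conc : ConcaveOn ℝ (Icc 0 1) p
  anti : AntitoneOn p (Icc 0 1)
  ge : ∀ y ∈ Icc (0 : ℝ) 1, √(1 - y ^ 2) ≤ p y

/-- The level function. -/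
noncomputable def lev (p : ℝ → ℝ) (ρ : ℝ) : ℝ := sSup {y | y ∈ Icc (0 : ℝ) 1 ∧ ρ ≤ p y}

theorem lev_bdd (p : ℝ → ℝ) (ρ : ℝ) : BddAbove {y | y ∈ Icc (0 : ℝ) 1 ∧ ρ ≤ p y} :=
  ⟨1, fun _ hy => hy.1.2⟩

theorem lev_nonneg (p : ℝ → ℝ) (ρ : ℝ) : 0 ≤ lev p ρ :=
  Real.sSup_nonneg fun _ hy => hy.1.1

theorem lev_le_one (p : ℝ → ℝ) (ρ : ℝ) : lev p ρ ≤ 1 :=
  Real.sSup_le (fun _ hy => hy.1.2) zero_le_one

theorem le_lev {p : ℝ → ℝ} {ρ y : ℝ} (hy : y ∈ Icc (0 : ℝ) 1) (h : ρ ≤ p y) : y ≤ lev p ρ :=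
  le_csSup (lev_bdd p ρ) ⟨hy, h⟩

theorem lev_antitone (p : ℝ → ℝ) : Antitone (lev p) := by
  intro ρ₁ ρ₂ h
  rcases eq_empty_or_nonempty {y | y ∈ Icc (0 : ℝ) 1 ∧ ρ₂ ≤ p y} with h0 | h0
  · have : lev p ρ₂ = 0 := by
      unfold lev
      rw [h0, Real.sSup_empty]
    rw [this]
    exact lev_nonneg p ρ₁
  · exact csSup_le_csSup (lev_bdd p ρ₁) h0 fun y hy => ⟨hy.1, h.trans hy.2⟩

theorem le_of_lt_lev {p : ℝ → ℝ} (hp : AntitoneOn p (Icc 0 1)) {ρ y : ℝ} (hy : 0 ≤ y)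
    (h : y < lev p ρ) : ρ ≤ p y := by
  have hne : {y | y ∈ Icc (0 : ℝ) 1 ∧ ρ ≤ p y}.Nonempty := by
    rcases eq_empty_or_nonempty {y | y ∈ Icc (0 : ℝ) 1 ∧ ρ ≤ p y} with h0 | h0
    · exfalso
      have : lev p ρ = 0 := by
        unfold lev
        rw [h0, Real.sSup_empty]
      linarith
    · exact h0
  obtain ⟨z, hz, hyz⟩ := exists_lt_of_lt_csSup hne h
  exact hz.2.trans (hp ⟨hy, hyz.le.trans hz.1.2⟩ hz.1 hyz.le)

theorem lt_of_lev_lt {p : ℝ → ℝ} {ρ y : ℝ} (hy : y ≤ 1) (h : lev p ρ < y) : p y < ρ := by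
  by_contra h1
  push Not at h1
  have := le_lev (p := p) (ρ := ρ) ⟨(lev_nonneg p ρ).trans h.le, hy⟩ h1
  linarith

namespace IsHalf

variable {p : ℝ → ℝ} (hp : IsHalf p)
include hp

theorem zero_ge : 1 ≤ p 0 := by
  have := hp.ge 0 ⟨le_rfl, zero_le_one⟩
  simpa using this

theorem nonneg {y : ℝ} (hy : y ∈ Icc (0 : ℝ) 1) : 0 ≤ p y :=
  (Real.sqrt_nonneg _).trans (hp.ge y hy)

theorem le_zero {y : ℝ} (hy : y ∈ Icc (0 : ℝ) 1) : p y ≤ p 0 :=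
  hp.anti ⟨le_rfl, zero_le_one⟩ hy hy.1

theorem lev_ge {ρ : ℝ} (hρ : 0 ≤ ρ) : √(1 - ρ ^ 2) ≤ lev p ρ := by
  rcases le_or_gt ρ 1 with h | h
  · have h0 : 0 ≤ 1 - ρ ^ 2 := by nlinarith
    have hy : √(1 - ρ ^ 2) ∈ Icc (0 : ℝ) 1 := by
      refine ⟨Real.sqrt_nonneg _, ?_⟩
      exact Real.sqrt_le_one.2 (by nlinarith)
    refine le_lev hy ?_
    refine le_trans (le_of_eq ?_) (hp.ge _ hy)
    rw [Real.sq_sqrt h0]
    rw [show 1 - (1 - ρ ^ 2) = ρ ^ 2 by ring, Real.sqrt_sq hρ]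
  · rw [Real.sqrt_eq_zero_of_nonpos (by nlinarith)]
    exact lev_nonneg p ρ

theorem lev_zero : lev p 0 = 1 :=
  le_antisymm (lev_le_one p 0) (le_lev ⟨zero_le_one, le_rfl⟩ (hp.nonneg ⟨zero_le_one, le_rfl⟩))

theorem lev_concave : ConcaveOn ℝ (Icc 0 (p 0)) (lev p) := by
  refine ⟨convex_Icc _ _, ?_⟩
  intro ρ₁ h₁ ρ₂ h₂ a b ha hb hab
  simp only [smul_eq_mul]
  have hne : ∀ ρ ∈ Icc 0 (p 0), {y | y ∈ Icc (0 : ℝ) 1 ∧ ρ ≤ p y}.Nonempty :=
    fun ρ hρ => ⟨0, ⟨le_rfl, zero_le_one⟩, hρ.2⟩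
  have key : ∀ y₁ ∈ {y | y ∈ Icc (0 : ℝ) 1 ∧ ρ₁ ≤ p y}, ∀ y₂ ∈ {y | y ∈ Icc (0 : ℝ) 1 ∧ ρ₂ ≤ p y},
      a * y₁ + b * y₂ ≤ lev p (a * ρ₁ + b * ρ₂) := by
    intro y₁ hy₁ y₂ hy₂
    refine le_lev ?_ ?_
    · have := (convex_Icc (0 : ℝ) 1) hy₁.1 hy₂.1 ha hb hab
      simpa using this
    · have h3 := hp.conc.2 hy₁.1 hy₂.1 ha hb hab
      simp only [smul_eq_mul] at h3
      refine le_trans ?_ h3
      have h4 := mul_le_mul_of_nonneg_left hy₁.2 ha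
      have h5 := mul_le_mul_of_nonneg_left hy₂.2 hb
      linarith
  have k2 : ∀ y₂ ∈ {y | y ∈ Icc (0 : ℝ) 1 ∧ ρ₂ ≤ p y},
      a * lev p ρ₁ + b * y₂ ≤ lev p (a * ρ₁ + b * ρ₂) := by
    intro y₂ hy₂
    rcases ha.eq_or_lt with h | h
    · rw [← h] at key ⊢
      obtain ⟨y₁, hy₁⟩ := hne ρ₁ h₁
      have := key y₁ hy₁ y₂ hy₂
      simpa using this
    · have h6 : lev p ρ₁ ≤ (lev p (a * ρ₁ + b * ρ₂) - b * y₂) / a := by
        refine csSup_le (hne ρ₁ h₁) fun y₁ hy₁ => ?_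
        rw [le_div_iff₀ h]
        have := key y₁ hy₁ y₂ hy₂
        linarith
      rw [le_div_iff₀ h] at h6
      linarith
  rcases hb.eq_or_lt with h | h
  · rw [← h] at k2 ⊢
    obtain ⟨y₂, hy₂⟩ := hne ρ₂ h₂
    have := k2 y₂ hy₂
    simpa using this
  · have h6 : lev p ρ₂ ≤ (lev p (a * ρ₁ + b * ρ₂) - a * lev p ρ₁) / b := by
      refine csSup_le (hne ρ₂ h₂) fun y₂ hy₂ => ?_
      rw [le_div_iff₀ h]
      have := k2 y₂ hy₂
      linarith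
    rw [le_div_iff₀ h] at h6
    linarith

theorem lev_continuousOn : ContinuousOn (lev p) (Ioo 0 (p 0)) :=
  (hp.lev_concave.subset Ioo_subset_Icc_self (convex_Ioo _ _)).continuousOn isOpen_Ioo

/-- a measurable version -/
theorem exists_meas : ∃ P : ℝ → ℝ, Measurable P ∧ ∀ y ∈ Icc (0 : ℝ) 1, P y = p y := by
  refine ⟨fun y => p (max 0 (min 1 y)), ?_, ?_⟩
  · apply Antitone.measurable
    intro y z hyz
    apply hp.anti
    · exact ⟨le_max_left _ _, max_le zero_le_one (min_le_left _ _)⟩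
    · exact ⟨le_max_left _ _, max_le zero_le_one (min_le_left _ _)⟩
    · exact max_le_max le_rfl (min_le_min le_rfl hyz)
  · intro y hy
    simp only
    rw [min_eq_right hy.2, max_eq_right hy.1]

theorem fub {φ ψ : ℝ → ℝ} (hφ : Continuous φ) (hψ : Continuous ψ) :
    ∫ y in (0 : ℝ)..1, φ y * ∫ ρ in (0 : ℝ)..p y, ψ ρ =
      ∫ ρ in (0 : ℝ)..p 0, ψ ρ * ∫ y in (0 : ℝ)..lev p ρ, φ y := by
  obtain ⟨P, hPm, hP⟩ := hp.exists_meas
  have hR0 : (0 : ℝ) ≤ p 0 := zero_le_one.trans hp.zero_ge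
  set D : Set (ℝ × ℝ) := {q | q.2 ≤ P q.1} with hD
  have hDm : MeasurableSet D := measurableSet_le measurable_snd (hPm.comp measurable_fst)
  set f : ℝ → ℝ → ℝ := fun y ρ => D.indicator (fun q => φ q.1 * ψ q.2) (y, ρ) with hf
  have hint : Integrable (Function.uncurry f)
      ((volume.restrict (Ioc (0 : ℝ) 1)).prod (volume.restrict (Ioc 0 (p 0)))) := by
    have h1 : Integrable φ (volume.restrict (Ioc (0 : ℝ) 1)) :=
      (hφ.integrableOn_Icc (a := 0) (b := 1)).mono_set Ioc_subset_Icc_self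
    have h2 : Integrable ψ (volume.restrict (Ioc 0 (p 0))) :=
      (hψ.integrableOn_Icc (a := 0) (b := p 0)).mono_set Ioc_subset_Icc_self
    exact (h1.mul_prod h2).indicator hDm
  have hswap := MeasureTheory.integral_integral_swap hint
  rw [intervalIntegral.integral_of_le zero_le_one, intervalIntegral.integral_of_le hR0]
  have hL : ∫ y in Ioc (0 : ℝ) 1, φ y * ∫ ρ in (0 : ℝ)..p y, ψ ρ =
      ∫ y in Ioc (0 : ℝ) 1, ∫ ρ in Ioc 0 (p 0), f y ρ := by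
    refine setIntegral_congr_fun measurableSet_Ioc fun y hy => ?_
    have hy' : y ∈ Icc (0 : ℝ) 1 := Ioc_subset_Icc_self hy
    rw [intervalIntegral.integral_of_le (hp.nonneg hy'), ← integral_const_mul]
    have hset : Ioc 0 (p y) = Ioc 0 (p 0) ∩ {ρ | ρ ≤ P y} := by
      ext ρ
      simp only [mem_Ioc, mem_inter_iff, mem_setOf_eq, hP y hy']
      constructor
      · rintro ⟨h1, h2⟩
        exact ⟨⟨h1, h2.trans (hp.le_zero hy')⟩, h2⟩
      · rintro ⟨⟨h1, _⟩, h2⟩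
        exact ⟨h1, h2⟩
    have hms : MeasurableSet {ρ : ℝ | ρ ≤ P y} := measurableSet_Iic
    rw [hset, ← setIntegral_indicator hms]
    refine setIntegral_congr_fun measurableSet_Ioc fun ρ _ => ?_
    simp only [hf, hD]
    by_cases h : ρ ≤ P y
    · rw [indicator_of_mem (show ρ ∈ {ρ | ρ ≤ P y} from h),
        indicator_of_mem (show (y, ρ) ∈ {q : ℝ × ℝ | q.2 ≤ P q.1} from h)]
    · rw [indicator_of_notMem (show ρ ∉ {ρ | ρ ≤ P y} from h),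
        indicator_of_notMem (show (y, ρ) ∉ {q : ℝ × ℝ | q.2 ≤ P q.1} from h)]
  have hRr : ∫ ρ in Ioc 0 (p 0), ψ ρ * ∫ y in (0 : ℝ)..lev p ρ, φ y =
      ∫ ρ in Ioc 0 (p 0), ∫ y in Ioc (0 : ℝ) 1, f y ρ := by
    refine setIntegral_congr_fun measurableSet_Ioc fun ρ hρ => ?_
    rw [intervalIntegral.integral_of_le (lev_nonneg p ρ), ← integral_const_mul]
    have h1 : ∫ y in Ioc (0 : ℝ) 1, f y ρ =
        ∫ y in Ioc (0 : ℝ) 1, (Ioc 0 (lev p ρ)).indicator (fun y => ψ ρ * φ y) y := by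
      refine setIntegral_congr_ae measurableSet_Ioc ?_
      have hae : ∀ᵐ y : ℝ ∂volume, y ≠ lev p ρ := by
        simp [ae_iff, measure_singleton]
      filter_upwards [hae] with y hne hy
      have hy' : y ∈ Icc (0 : ℝ) 1 := Ioc_subset_Icc_self hy
      rcases lt_or_gt_of_ne hne with h | h
      · rw [indicator_of_mem (show y ∈ Ioc 0 (lev p ρ) from ⟨hy.1, h.le⟩)]
        simp only [hf, hD]
        rw [indicator_of_mem (show (y, ρ) ∈ {q : ℝ × ℝ | q.2 ≤ P q.1} by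
          simp only [mem_setOf_eq, hP y hy']
          exact le_of_lt_lev hp.anti hy'.1 h)]
        ring
      · rw [indicator_of_notMem (show y ∉ Ioc 0 (lev p ρ) from fun h2 => absurd h2.2 (not_le.2 h))]
        simp only [hf, hD]
        rw [indicator_of_notMem (show (y, ρ) ∉ {q : ℝ × ℝ | q.2 ≤ P q.1} by
          simp only [mem_setOf_eq, hP y hy', not_le]
          exact lt_of_lev_lt hy'.2 h)]
    rw [h1, setIntegral_indicator measurableSet_Ioc]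
    congr 2
    ext y
    simp only [mem_inter_iff, mem_Ioc]
    constructor
    · rintro ⟨h1, h2⟩
      exact ⟨⟨h1, h2.trans (lev_le_one p ρ)⟩, h1, h2⟩
    · rintro ⟨_, h2⟩
      exact h2
  rw [hL, hRr]
  exact hswap

/-- powers -/
theorem int_pow (k : ℕ) : ∫ y in (0 : ℝ)..1, p y ^ (k + 1) =
    ∫ ρ in (0 : ℝ)..p 0, ((k : ℝ) + 1) * ρ ^ k * lev p ρ := by
  have h := hp.fub (φ := fun _ => 1) (ψ := fun ρ => ((k : ℝ) + 1) * ρ ^ k) (by fun_prop)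
    (by fun_prop)
  have h1 : ∀ b : ℝ, ∫ ρ in (0 : ℝ)..b, ((k : ℝ) + 1) * ρ ^ k = b ^ (k + 1) := by
    intro b
    rw [intervalIntegral.integral_const_mul, integral_pow]
    have : (k : ℝ) + 1 ≠ 0 := by positivity
    field_simp
    simp
  simp only [h1, one_mul] at h
  rw [h]
  simp

/-- the second moment -/
theorem int_sq_mul (k : ℕ) : ∫ y in (0 : ℝ)..1, y ^ 2 * p y ^ (k + 1) =
    ∫ ρ in (0 : ℝ)..p 0, ((k : ℝ) + 1) * ρ ^ k * (lev p ρ ^ 3 / 3) := by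
  have h := hp.fub (φ := fun y => y ^ 2) (ψ := fun ρ => ((k : ℝ) + 1) * ρ ^ k) (by fun_prop)
    (by fun_prop)
  have h1 : ∀ b : ℝ, ∫ ρ in (0 : ℝ)..b, ((k : ℝ) + 1) * ρ ^ k = b ^ (k + 1) := by
    intro b
    rw [intervalIntegral.integral_const_mul, integral_pow]
    have : (k : ℝ) + 1 ≠ 0 := by positivity
    field_simp
    simp
  simp only [h1] at h
  rw [h]
  refine intervalIntegral.integral_congr fun ρ _ => ?_
  simp only [integral_pow]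
  norm_num

end IsHalf

end Vale.Agent.P237.J4
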