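import Mathlib.MeasureTheory.Integral.DivergenceTheorem
import Vale.Agent.P237.J4.Level
import Vale.Agent.P237.Alm.MainA0

set_option linter.all false

/-!
# P237: the circle profile and its level function
-/

open Real MeasureTheory Set

namespace Vale.Agent.P237.J4

open AllN

theorem circ_concave : ConcaveOn ℝ (Icc 0 1) (fun y : ℝ => √(1 - y ^ 2)) := by
  refine ⟨convex_Icc _ _, ?_⟩
  intro x hx y hy a b ha hb hab
  simp only [smul_eq_mul]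
  apply Real.le_sqrt_of_sq_le
  have hX : √(1 - x ^ 2) ^ 2 = 1 - x ^ 2 := Real.sq_sqrt (by nlinarith [hx.1, hx.2])
  have hY : √(1 - y ^ 2) ^ 2 = 1 - y ^ 2 := Real.sq_sqrt (by nlinarith [hy.1, hy.2])
  set X := √(1 - x ^ 2)
  set Y := √(1 - y ^ 2)
  have h1 : X * Y + x * y ≤ 1 := by nlinarith [sq_nonneg (X - Y), sq_nonneg (x - y)]
  have h2 : 0 ≤ a * b := mul_nonneg ha hb
  have h3 : a * b * (X * Y + x * y) ≤ a * b * 1 := mul_le_mul_of_nonneg_left h1 h2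
  have h4 : (a + b) ^ 2 = 1 := by rw [hab]; norm_num
  have h5 : (a * X + b * Y) ^ 2 + (a * x + b * y) ^ 2 =
      a ^ 2 * (X ^ 2 + x ^ 2) + b ^ 2 * (Y ^ 2 + y ^ 2) + 2 * (a * b * (X * Y + x * y)) := by ring
  rw [hX, hY] at h5
  have h6 : (a + b) ^ 2 = a ^ 2 + b ^ 2 + 2 * (a * b) := by ring
  have h7 : a ^ 2 * (1 - x ^ 2 + x ^ 2) = a ^ 2 := by ring
  have h8 : b ^ 2 * (1 - y ^ 2 + y ^ 2) = b ^ 2 := by ring
  linarith

theorem circ_half : IsHalf (fun y : ℝ => √(1 - y ^ 2)) := by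
  refine ⟨circ_concave, ?_, fun y _ => le_rfl⟩
  intro x hx y hy hxy
  apply Real.sqrt_le_sqrt
  nlinarith [hx.1, hy.1]

theorem lev_circ {ρ : ℝ} (hρ : 0 ≤ ρ) : lev (fun y : ℝ => √(1 - y ^ 2)) ρ = √(1 - ρ ^ 2) := by
  apply le_antisymm _ (circ_half.lev_ge hρ)
  refine Real.sSup_le ?_ (Real.sqrt_nonneg _)
  rintro y ⟨hy, h⟩
  apply Real.le_sqrt_of_sq_le
  have h0 : (0 : ℝ) ≤ 1 - y ^ 2 := by nlinarith [hy.1, hy.2]
  have h1 : √(1 - y ^ 2) ^ 2 = 1 - y ^ 2 := Real.sq_sqrt h0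
  have h2 : ρ ^ 2 ≤ √(1 - y ^ 2) ^ 2 := pow_le_pow_left₀ hρ h 2
  linarith

theorem circ_cont : Continuous fun y : ℝ => √(1 - y ^ 2) := by fun_prop

theorem aInt_half (k : ℕ) : ∫ y in (0 : ℝ)..1, √(1 - y ^ 2) ^ k = aInt k / 2 := by
  have h := integral_even_eq (f := fun y : ℝ => √(1 - y ^ 2) ^ k) (by intro y; simp)
    ((circ_cont.pow k).intervalIntegrable 0 1)
  unfold aInt
  rw [h]
  ring

theorem circ_tail {R : ℝ} (hR : 1 ≤ R) (f g : ℝ → ℝ) (hf : Continuous f) (hg : Continuous g)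
    (hg0 : g 0 = 0) :
    ∫ ρ in (0 : ℝ)..R, f ρ * g (√(1 - ρ ^ 2)) = ∫ ρ in (0 : ℝ)..1, f ρ * g (√(1 - ρ ^ 2)) := by
  have hc : Continuous fun ρ : ℝ => f ρ * g (√(1 - ρ ^ 2)) := by fun_prop
  rw [← intervalIntegral.integral_add_adjacent_intervals (hc.intervalIntegrable 0 1)
    (hc.intervalIntegrable 1 R)]
  have : ∫ ρ in (1 : ℝ)..R, f ρ * g (√(1 - ρ ^ 2)) = 0 := by
    rw [intervalIntegral.integral_of_le hR]
    refine setIntegral_eq_zero_of_forall_eq_zero fun ρ hρ => ?_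
    rw [Real.sqrt_eq_zero_of_nonpos (by nlinarith [hρ.1]), hg0, mul_zero]
  rw [this, add_zero]

theorem circ_pow (k : ℕ) {R : ℝ} (hR : 1 ≤ R) :
    ∫ ρ in (0 : ℝ)..R, ((k : ℝ) + 1) * ρ ^ k * √(1 - ρ ^ 2) = aInt (k + 1) / 2 := by
  have h0 := circ_tail hR (fun ρ => ((k : ℝ) + 1) * ρ ^ k) id (by fun_prop) continuous_id rfl
  simp only [id] at h0
  rw [h0, ← aInt_half]
  have h := circ_half.int_pow k
  rw [h]
  have h1 : √(1 - (0 : ℝ) ^ 2) = 1 := by simp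
  rw [h1]
  refine intervalIntegral.integral_congr fun ρ hρ => ?_
  rw [uIcc_of_le zero_le_one] at hρ
  rw [lev_circ hρ.1]

theorem circ_sq_mul (k : ℕ) {R : ℝ} (hR : 1 ≤ R) :
    ∫ ρ in (0 : ℝ)..R, ((k : ℝ) + 1) * ρ ^ k * (√(1 - ρ ^ 2) ^ 3 / 3) =
      (aInt (k + 1) - aInt (k + 3)) / 2 := by
  rw [circ_tail hR (fun ρ => ((k : ℝ) + 1) * ρ ^ k) (fun z => z ^ 3 / 3) (by fun_prop)
    (by fun_prop) (by norm_num)]
  have h := circ_half.int_sq_mul k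
  have h1 : √(1 - (0 : ℝ) ^ 2) = 1 := by simp
  rw [h1] at h
  have h2 : ∫ ρ in (0 : ℝ)..1, ((k : ℝ) + 1) * ρ ^ k * (√(1 - ρ ^ 2) ^ 3 / 3) =
      ∫ ρ in (0 : ℝ)..1, ((k : ℝ) + 1) * ρ ^ k *
        (lev (fun y : ℝ => √(1 - y ^ 2)) ρ ^ 3 / 3) := by
    refine intervalIntegral.integral_congr fun ρ hρ => ?_
    rw [uIcc_of_le zero_le_one] at hρ
    rw [lev_circ hρ.1]
  have i1 : IntervalIntegrable (fun y : ℝ => √(1 - y ^ 2) ^ (k + 1)) volume 0 1 :=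
    (circ_cont.pow _).intervalIntegrable 0 1
  have i2 : IntervalIntegrable (fun y : ℝ => √(1 - y ^ 2) ^ (k + 3)) volume 0 1 :=
    (circ_cont.pow _).intervalIntegrable 0 1
  rw [h2, ← h, sub_div, ← aInt_half, ← aInt_half, ← intervalIntegral.integral_sub i1 i2]
  refine intervalIntegral.integral_congr fun y hy => ?_
  rw [uIcc_of_le zero_le_one] at hy
  have h3 : √(1 - y ^ 2) ^ 2 = 1 - y ^ 2 := Real.sq_sqrt (by nlinarith [hy.1, hy.2])
  rw [pow_add _ k 3, pow_add _ k 1]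
  have h4 : √(1 - y ^ 2) ^ 3 = √(1 - y ^ 2) * (1 - y ^ 2) := by
    calc √(1 - y ^ 2) ^ 3 = √(1 - y ^ 2) * √(1 - y ^ 2) ^ 2 := by ring
      _ = √(1 - y ^ 2) * (1 - y ^ 2) := by rw [h3]
  rw [h4]
  ring

theorem aInt_two : aInt 2 = 4 / 3 := by
  have := Alm.aInt_rec 0
  rw [Alm.aInt_zero] at this
  norm_num at this
  linarith

theorem aInt_three : aInt 3 = 3 * π / 8 := by
  have := Alm.aInt_rec 1
  rw [Alm.aInt_one] at this
  norm_num at this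
  linarith

theorem aInt_five : 6 * aInt 5 = 5 * aInt 3 := by
  have := Alm.aInt_rec 3
  norm_num at this
  linarith

/-- the primitive of `2 σ √(1 - σ²)` -/
theorem circ_prim {a b : ℝ} (ha : 0 ≤ a) (hab : a ≤ b) :
    ∫ σ in a..b, 2 * σ * √(1 - σ ^ 2) = 2 / 3 * (√(1 - a ^ 2) ^ 3 - √(1 - b ^ 2) ^ 3) := by
  have h := integral_eq_of_hasDerivAt_off_countable_of_le
    (fun σ : ℝ => -(2 / 3 * √(1 - σ ^ 2) ^ 3)) (fun σ => 2 * σ * √(1 - σ ^ 2)) hab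
    (s := {1}) (countable_singleton 1) (by fun_prop) ?_
    ((by fun_prop : Continuous fun σ : ℝ => 2 * σ * √(1 - σ ^ 2)).intervalIntegrable a b)
  · rw [h]
    ring
  · rintro x ⟨hx, hx1⟩
    have hx0 : 0 < x := ha.trans_lt hx.1
    rcases lt_or_gt_of_ne (show x ≠ 1 from hx1) with h1 | h1
    · have hpos : 0 < 1 - x ^ 2 := by nlinarith
      have h2 : HasDerivAt (fun y : ℝ => 1 - y ^ 2) (-(2 * x)) x := by
        simpa using (hasDerivAt_pow 2 x).const_sub 1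
      have h3 := ((h2.sqrt hpos.ne').pow 3).const_mul (2 / 3)
      refine h3.neg.congr_deriv ?_
      have hs : √(1 - x ^ 2) ≠ 0 := (Real.sqrt_pos.2 hpos).ne'
      field_simp
      ring
    · have h2 : (fun σ : ℝ => -(2 / 3 * √(1 - σ ^ 2) ^ 3)) =ᶠ[nhds x] fun _ => 0 := by
        filter_upwards [lt_mem_nhds h1] with y hy
        rw [Real.sqrt_eq_zero_of_nonpos (by nlinarith)]
        norm_num
      have h3 : √(1 - x ^ 2) = 0 := Real.sqrt_eq_zero_of_nonpos (by nlinarith)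
      rw [h3, mul_zero]
      exact (hasDerivAt_const x (0 : ℝ)).congr_of_eventuallyEq h2

end Vale.Agent.P237.J4
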