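import Vale.Agent.P237.J4.Cert

set_option linter.all false

/-!
# P237, dimension four: the pointwise inequality
-/

open Real

namespace Vale.Agent.P237.J4

open _root_.P100.BoxPos

/-- The constant `3 B₀ / A₀`. -/
noncomputable def K0 : ℝ := 27 * π / 32

theorem K0_ge : (13253 / 5000 : ℝ) ≤ K0 := by
  unfold K0
  have := pi_gt_d4
  linarith

theorem sqrt_series {x : ℝ} (hx : 0 ≤ x) : 1 + x / 2 - x ^ 2 / 8 ≤ √(1 + x) := by
  rcases le_or_gt (1 + x / 2 - x ^ 2 / 8) 0 with h | h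
  · exact h.trans (Real.sqrt_nonneg _)
  · apply Real.le_sqrt_of_sq_le
    have hx8 : x ≤ 8 := by nlinarith
    have h1 : 0 ≤ x ^ 3 * (8 - x) := by
      have : 0 ≤ 8 - x := by linarith only [hx8]
      (clear * - hx hx8; positivity)
    nlinarith only [h1]

/-- the weight `η'` -/
noncomputable def wt (ρ : ℝ) : ℝ := 13 / 5 * max (24 / 25 - ρ) 0

/-- the potential `2 η` -/
noncomputable def pt (ρ : ℝ) : ℝ := -(13 / 5 * max (24 / 25 - ρ) 0 ^ 2)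

/-- the bracket -/
noncomputable def uu (ρ t C X : ℝ) : ℝ :=
  K0 * √(3 / 2 * X) - 3 * ρ + 47 / 100 * ρ ^ 3 - 47 / 100 * ρ * (t ^ 2 + t * C + C ^ 2)

/-- the lower bound for the running integral from the tangent line -/
noncomputable def lowX (ρ s c C : ℝ) : ℝ :=
  2 / 3 + (ρ ^ 2 * (3 - 2 * ρ * s) - 1 - c ^ 2) / (3 * c) + 2 / 3 * C ^ 3

/-- the lower bound of the bracket -/
theorem uu_ge {ρ t C X G : ℝ} (hG : 0 ≤ G) (hX : 2 / 3 + G ≤ X) :
    13253 / 5000 * (1 + 3 / 4 * G - 9 / 32 * G ^ 2) - 3 * ρ + 47 / 100 * ρ ^ 3 -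
      47 / 100 * ρ * (t ^ 2 + t * C + C ^ 2) ≤ uu ρ t C X := by
  unfold uu
  have h1 : √(1 + 3 / 2 * G) ≤ √(3 / 2 * X) := Real.sqrt_le_sqrt (by linarith only [hX])
  have h2 := sqrt_series (x := 3 / 2 * G) (by positivity)
  have h3 : 1 + 3 / 4 * G - 9 / 32 * G ^ 2 ≤ √(3 / 2 * X) := by
    refine le_trans (le_of_eq ?_) (h2.trans h1)
    ring
  have h4 : 13253 / 5000 * (1 + 3 / 4 * G - 9 / 32 * G ^ 2) ≤ K0 * √(3 / 2 * X) :=
    (mul_le_mul_of_nonneg_left h3 (by norm_num)).trans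
      (mul_le_mul_of_nonneg_right K0_ge (Real.sqrt_nonneg _))
  linarith only [h4]

theorem algI {e P Q B M w : ℝ} (he : e ≠ 0) (hP : P ≠ 0) (hQ : Q ≠ 0) (hB : B ≠ 0) :
    13253 / 5000 * (1 + 3 / 4 * (4 * w ^ 3 * M / (3 * P ^ 3 * (B * Q))) -
      9 / 32 * (4 * w ^ 3 * M / (3 * P ^ 3 * (B * Q))) ^ 2) - 3 * (2 * e / P) +
      47 / 100 * (2 * e / P) ^ 3 - 47 / 100 * (2 * e / P) * (3 * ((1 - e * e) / P) ^ 2 +
        3 * ((1 - e * e) / P) * (2 * w ^ 2 / (P * B)) + (2 * w ^ 2 / (P * B)) ^ 2) -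
      13 / 5 * (24 / 25 - 2 * e / P) ^ 2 +
      13 / 5 * (24 / 25 - 2 * e / P) * (w * M / (3 * e * P * Q)) =
    (397590 * (P ^ 6 * (B * Q) ^ 2 + w ^ 3 * M * P ^ 3 * (B * Q)) - 198795 * (w ^ 3 * M) ^ 2 -
      900000 * e * P ^ 5 * (B * Q) ^ 2 + 564000 * e ^ 3 * P ^ 3 * (B * Q) ^ 2 -
      423000 * e * (1 - e * e) ^ 2 * P ^ 3 * (B * Q) ^ 2 -
      846000 * e * (1 - e * e) * w ^ 2 * P ^ 3 * (B * Q) * Q -
      564000 * e * w ^ 4 * P ^ 3 * Q ^ 2 - 2496 * (12 * P - 25 * e) ^ 2 * P ^ 4 * (B * Q) ^ 2 +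
      10400 * (12 * P - 25 * e) * w * (M / e) * P ^ 4 * (B * Q) * B) /
      (150000 * P ^ 6 * (B * Q) ^ 2) := by
  field_simp
  ring

theorem algII {e P Q B M w : ℝ} (hP : P ≠ 0) (hQ : Q ≠ 0) (hB : B ≠ 0) :
    13253 / 5000 * (1 + 3 / 4 * (4 * w ^ 3 * M / (3 * P ^ 3 * (B * Q))) -
      9 / 32 * (4 * w ^ 3 * M / (3 * P ^ 3 * (B * Q))) ^ 2) - 3 * (2 * e / P) +
      47 / 100 * (2 * e / P) ^ 3 - 47 / 100 * (2 * e / P) * (3 * ((1 - e * e) / P) ^ 2 +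
        3 * ((1 - e * e) / P) * (2 * w ^ 2 / (P * B)) + (2 * w ^ 2 / (P * B)) ^ 2) =
    (26506 * (P ^ 6 * (B * Q) ^ 2 + w ^ 3 * M * P ^ 3 * (B * Q)) - 13253 * (w ^ 3 * M) ^ 2 -
      60000 * e * P ^ 5 * (B * Q) ^ 2 + 37600 * e ^ 3 * P ^ 3 * (B * Q) ^ 2 -
      28200 * e * (1 - e * e) ^ 2 * P ^ 3 * (B * Q) ^ 2 -
      56400 * e * (1 - e * e) * w ^ 2 * P ^ 3 * (B * Q) * Q -
      37600 * e * w ^ 4 * P ^ 3 * Q ^ 2) /
      (10000 * P ^ 6 * (B * Q) ^ 2) := by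
  field_simp
  ring

/-- region I -/
theorem region_I {e b : ℝ} (hb : 0 ≤ b) (hbe : b < e) (he : e < 3 / 4) :
    0 < 397590 * ((1 + e * e) ^ 6 * ((1 - b * b) * (1 + b * b)) ^ 2 +
        (e - b) ^ 3 * (3 * e - e ^ 3 + (1 - 3 * e * e) * b) * (1 + e * e) ^ 3 *
          ((1 - b * b) * (1 + b * b))) -
      198795 * ((e - b) ^ 3 * (3 * e - e ^ 3 + (1 - 3 * e * e) * b)) ^ 2 -
      900000 * e * (1 + e * e) ^ 5 * ((1 - b * b) * (1 + b * b)) ^ 2 +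
      564000 * e ^ 3 * (1 + e * e) ^ 3 * ((1 - b * b) * (1 + b * b)) ^ 2 -
      423000 * e * (1 - e * e) ^ 2 * (1 + e * e) ^ 3 * ((1 - b * b) * (1 + b * b)) ^ 2 -
      846000 * e * (1 - e * e) * (e - b) ^ 2 * (1 + e * e) ^ 3 * ((1 - b * b) * (1 + b * b)) *
        (1 + b * b) -
      564000 * e * (e - b) ^ 4 * (1 + e * e) ^ 3 * (1 + b * b) ^ 2 -
      2496 * (12 * (1 + e * e) - 25 * e) ^ 2 * (1 + e * e) ^ 4 *
        ((1 - b * b) * (1 + b * b)) ^ 2 +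
      10400 * (12 * (1 + e * e) - 25 * e) * (e - b) *
        ((3 * e - e ^ 3 + (1 - 3 * e * e) * b) / e) * (1 + e * e) ^ 4 *
        ((1 - b * b) * (1 + b * b)) * (1 - b * b) := by
  have he0 : 0 < e := lt_of_le_of_lt hb hbe
  have hv0 : 0 ≤ b / e := by (clear * - hb he0; positivity)
  have hv1 : b / e < 1 := (div_lt_one he0).2 hbe
  have key := boxCheck_sound lI_chk1 (x := e) (y := b / e) (by push_cast; linarith only [hb, hbe])
    (by push_cast; linarith only [he]) (by push_cast; linarith only [hv0]) (by push_cast; linarith only [hv1])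
  rw [← fI_ev] at key
  have hM : (3 * e - e ^ 3 + (1 - 3 * e * e) * b) / e =
      3 - e * e + (1 - 3 * e * e) * (b / e) := by
    field_simp
  have hev : e * (b / e) = b := by (clear * - he0; field_simp)
  have h4 : 1 - (e * (b / e)) ^ 4 = (1 - b * b) * (1 + b * b) := by
    rw [hev]
    ring
  have hM2 : e * (3 - e * e + (1 - 3 * e * e) * (b / e)) =
      3 * e - e ^ 3 + (1 - 3 * e * e) * b := by
    rw [← hM]
    (clear * - he0; field_simp)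
  rw [h4, hM2, hev] at key
  rw [hM]
  exact key

/-- regions IIa, IIb -/
theorem region_II {e b : ℝ} (hb : 0 ≤ b) (hbe : b < e) (he : 3 / 4 ≤ e) (he1 : e < 1) :
    0 < 26506 * ((1 + e * e) ^ 6 * ((1 - b * b) * (1 + b * b)) ^ 2 +
        (e - b) ^ 3 * (3 * e - e ^ 3 + (1 - 3 * e * e) * b) * (1 + e * e) ^ 3 *
          ((1 - b * b) * (1 + b * b))) -
      13253 * ((e - b) ^ 3 * (3 * e - e ^ 3 + (1 - 3 * e * e) * b)) ^ 2 -
      60000 * e * (1 + e * e) ^ 5 * ((1 - b * b) * (1 + b * b)) ^ 2 +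
      37600 * e ^ 3 * (1 + e * e) ^ 3 * ((1 - b * b) * (1 + b * b)) ^ 2 -
      28200 * e * (1 - e * e) ^ 2 * (1 + e * e) ^ 3 * ((1 - b * b) * (1 + b * b)) ^ 2 -
      56400 * e * (1 - e * e) * (e - b) ^ 2 * (1 + e * e) ^ 3 * ((1 - b * b) * (1 + b * b)) *
        (1 + b * b) -
      37600 * e * (e - b) ^ 4 * (1 + e * e) ^ 3 * (1 + b * b) ^ 2 := by
  have he0 : 0 < e := lt_of_le_of_lt hb hbe
  rcases lt_or_ge (b / e) (7 / 8) with hv | hv
  · have hv0 : 0 ≤ b / e := by positivity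
    have key := boxCheck_sound lIIa_chk1 (x := e) (y := b / e) (by push_cast; linarith only [he])
      (by push_cast; linarith only [he1]) (by push_cast; linarith only [hv0]) (by push_cast; linarith only [hv])
    rw [← fIIa_ev] at key
    have hev : e * (b / e) = b := by field_simp
    have h4 : 1 - (e * (b / e)) ^ 4 = (1 - b * b) * (1 + b * b) := by
      rw [hev]
      ring
    have hM2 : e * (3 - e * e + (1 - 3 * e * e) * (b / e)) =
        3 * e - e ^ 3 + (1 - 3 * e * e) * b := by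
      (clear * - he; field_simp)
    rw [h4, hM2, hev] at key
    exact key
  · rw [le_div_iff₀ he0] at hv
    have hb1 : b < 1 := hbe.trans he1
    have hb2 : 0 < 1 - b := by linarith only [hbe, he1]
    have hu0 : 0 ≤ (e - b) / (1 - b) := div_nonneg (by linarith only [hbe]) hb2.le
    have hu1 : (e - b) / (1 - b) < 1 := (div_lt_one hb2).2 (by linarith only [he1])
    have key := boxCheck_sound lIIb_chk1 (x := b) (y := (e - b) / (1 - b))
      (by push_cast; linarith only [he, hv]) (by push_cast; linarith only [hbe, he1]) (by push_cast; linarith only [hu0])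
      (by push_cast; linarith only [hu1])
    rw [← fIIb_ev] at key
    obtain ⟨u, hu⟩ : ∃ u, u = (e - b) / (1 - b) := ⟨_, rfl⟩
    rw [← hu] at key hu0 hu1
    have heu : b + u * (1 - b) = e := by
      rw [hu]
      field_simp
      ring
    rw [heu] at key
    have hw : e - b = u * (1 - b) := by rw [← heu]; ring
    have key2 := mul_pos (pow_pos hb2 2) key
    rw [hw]
    refine lt_of_lt_of_eq key2 ?_
    ring

theorem algIIIa {b ρ Q B : ℝ} (hQ : Q ≠ 0) (hB : B ≠ 0) :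
    13253 / 5000 * (1 + 3 / 4 * ((ρ ^ 2 * (3 * Q - 4 * ρ * b) * Q - 2 * (1 + b ^ 4)) /
        (3 * Q * B)) - 9 / 32 * ((ρ ^ 2 * (3 * Q - 4 * ρ * b) * Q - 2 * (1 + b ^ 4)) /
        (3 * Q * B)) ^ 2) - 3 * ρ + 47 / 100 * ρ ^ 3 -
      47 / 100 * ρ * (((Q - 2 * b * ρ) / B) ^ 2 + (Q - 2 * b * ρ) / B * 0 + 0 ^ 2) =
    (424096 * (Q ^ 2 * B ^ 2) + 106024 * (ρ ^ 2 * (3 * Q - 4 * ρ * b) * Q - 2 * (1 + b ^ 4)) *
        Q * B - 13253 * (ρ ^ 2 * (3 * Q - 4 * ρ * b) * Q - 2 * (1 + b ^ 4)) ^ 2 +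
      (75200 * ρ ^ 3 - 480000 * ρ) * Q ^ 2 * B ^ 2 -
      75200 * ρ * (Q - 2 * b * ρ) ^ 2 * Q ^ 2) / (160000 * Q ^ 2 * B ^ 2) := by
  field_simp
  ring

/-- the lower bound `N` is nonnegative -/
theorem N_nonneg {b ρ : ℝ} (hb : 0 ≤ b) (hρ : 1 ≤ ρ) (ht : 0 ≤ 1 + b * b - 2 * b * ρ) :
    0 ≤ ρ ^ 2 * (3 * (1 + b * b) - 4 * ρ * b) * (1 + b * b) - 2 * (1 + b ^ 4) := by
  have h1 : ρ ^ 2 * (3 * (1 + b * b) - 4 * ρ * b) * (1 + b * b) - 2 * (1 + b ^ 4) =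
      (1 - b) ^ 4 + (ρ - 1) * (1 + b * b) *
        (3 * (1 + b * b) * (ρ + 1) - 4 * b * (ρ ^ 2 + ρ + 1)) := by ring
  have h2 : ρ * (3 * (1 + b * b) * (ρ + 1) - 4 * b * (ρ ^ 2 + ρ + 1)) =
      2 * (ρ ^ 2 + ρ + 1) * (1 + b * b - 2 * b * ρ) +
        (1 + b * b) * ((ρ - 1) * (ρ + 2)) := by ring
  have h3 : 0 ≤ ρ * (3 * (1 + b * b) * (ρ + 1) - 4 * b * (ρ ^ 2 + ρ + 1)) := by
    rw [h2]
    have : 0 ≤ ρ - 1 := by linarith only [hρ]
    (clear * - hρ ht hb; positivity)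
  have h4 : 0 ≤ 3 * (1 + b * b) * (ρ + 1) - 4 * b * (ρ ^ 2 + ρ + 1) :=
    nonneg_of_mul_nonneg_right h3 (by linarith only [hρ])
  rw [h1]
  have : 0 ≤ ρ - 1 := by linarith only [hρ]
  (clear * - hρ hb h4; positivity)

/-- region IIIa -/
theorem region_IIIa {b ρ : ℝ} (hb : 0 ≤ b) (hb1 : b < 7 / 20) (hρ : 1 ≤ ρ) (hρ1 : ρ < 8 / 5) :
    0 < 424096 * ((1 + b * b) ^ 2 * (1 - b * b) ^ 2) +
      106024 * (ρ ^ 2 * (3 * (1 + b * b) - 4 * ρ * b) * (1 + b * b) - 2 * (1 + b ^ 4)) *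
        (1 + b * b) * (1 - b * b) -
      13253 * (ρ ^ 2 * (3 * (1 + b * b) - 4 * ρ * b) * (1 + b * b) - 2 * (1 + b ^ 4)) ^ 2 +
      (75200 * ρ ^ 3 - 480000 * ρ) * (1 + b * b) ^ 2 * (1 - b * b) ^ 2 -
      75200 * ρ * (1 + b * b - 2 * b * ρ) ^ 2 * (1 + b * b) ^ 2 := by
  have key := boxCheck_sound lIIIa_chk1 (x := b) (y := ρ) (by push_cast; linarith only [hb])
    (by push_cast; linarith only [hb1]) (by push_cast; linarith only [hρ]) (by push_cast; linarith only [hρ1])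
  rw [← fIIIa_ev] at key
  exact key

theorem algIIIb {b x Q N : ℝ} (hb : b ≠ 0) (hQ : Q ≠ 0) (hB : 1 + b ≠ 0) :
    13253 / 5000 * (1 + 3 / 4 * ((1 - b) ^ 3 * N / (12 * b ^ 2 * Q * (1 + b))) -
        9 / 32 * ((1 - b) ^ 3 * N / (12 * b ^ 2 * Q * (1 + b))) ^ 2) -
      3 * ((2 * b * x + (1 - x) * Q) / (2 * b)) +
      47 / 100 * ((2 * b * x + (1 - x) * Q) / (2 * b)) ^ 3 -
      47 / 100 * ((2 * b * x + (1 - x) * Q) / (2 * b)) *
        ((x * (1 - b) / (1 + b)) ^ 2 + x * (1 - b) / (1 + b) * 0 + 0 ^ 2) =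
    (6785536 * (b ^ 4 * Q ^ 2 * (1 + b) ^ 2) +
        424096 * b ^ 2 * Q * (1 + b) * (1 - b) ^ 3 * N - 13253 * (1 - b) ^ 6 * N ^ 2 -
      3840000 * b ^ 3 * (2 * b * x + (1 - x) * Q) * Q ^ 2 * (1 + b) ^ 2 +
      150400 * b * (2 * b * x + (1 - x) * Q) ^ 3 * Q ^ 2 * (1 + b) ^ 2 -
      601600 * b ^ 3 * (2 * b * x + (1 - x) * Q) * (1 - b) ^ 2 * x ^ 2 * Q ^ 2) /
      (2560000 * b ^ 4 * Q ^ 2 * (1 + b) ^ 2) := by
  field_simp
  ring

/-- region IIIb -/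
theorem region_IIIb {b x : ℝ} (hb : 7 / 20 ≤ b) (hb1 : b < 1) (hx : 0 ≤ x) (hx1 : x ≤ 1) :
    0 < 6785536 * (b ^ 4 * (1 + b * b) ^ 2 * (1 + b) ^ 2) +
      424096 * b ^ 2 * (1 + b * b) * (1 + b) * (1 - b) ^ 3 *
        (4 * (b * b) + 12 * (1 + b * b) * b * (1 - x) +
          3 * (1 + b * b) * (1 + b * b - 4 * b) * (1 - x) ^ 2 -
          2 * (1 + b * b) * (1 - b) ^ 2 * (1 - x) ^ 3) -
      13253 * (1 - b) ^ 6 * (4 * (b * b) + 12 * (1 + b * b) * b * (1 - x) +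
          3 * (1 + b * b) * (1 + b * b - 4 * b) * (1 - x) ^ 2 -
          2 * (1 + b * b) * (1 - b) ^ 2 * (1 - x) ^ 3) ^ 2 -
      3840000 * b ^ 3 * (2 * b * x + (1 - x) * (1 + b * b)) * (1 + b * b) ^ 2 * (1 + b) ^ 2 +
      150400 * b * (2 * b * x + (1 - x) * (1 + b * b)) ^ 3 * (1 + b * b) ^ 2 * (1 + b) ^ 2 -
      601600 * b ^ 3 * (2 * b * x + (1 - x) * (1 + b * b)) * (1 - b) ^ 2 * x ^ 2 *
        (1 + b * b) ^ 2 := by
  rcases lt_or_ge x (1 / 2) with h | h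
  · rcases lt_or_ge b (27 / 40) with h2 | h2
    · have key := boxCheck_sound lIIIb_chk1 (x := b) (y := x) (by push_cast; linarith only [hb])
        (by push_cast; linarith only [h2]) (by push_cast; linarith only [hx]) (by push_cast; linarith only [h])
      rw [← fIIIb_ev] at key
      exact key
    · have key := boxCheck_sound lIIIb_chk2 (x := b) (y := x) (by push_cast; linarith only [h2])
        (by push_cast; linarith only [hb1]) (by push_cast; linarith only [hx]) (by push_cast; linarith only [h])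
      rw [← fIIIb_ev] at key
      exact key
  · have key := boxCheck_sound lIIIb_chk3 (x := b) (y := x) (by push_cast; linarith only [hb])
      (by push_cast; linarith only [hb1]) (by push_cast; linarith only [h]) (by push_cast; linarith only [hx1])
    rw [← fIIIb_ev] at key
    exact key

/-- region IIIc -/
theorem region_IIIc {ρ t X : ℝ} (hρ : 8 / 5 ≤ ρ) (ht : 0 ≤ t) (ht1 : t ≤ 1)
    (hX : ρ ^ 2 * (1 + 2 * t) / 3 ≤ X) : 0 < uu ρ t 0 X := by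
  have h1 : ρ * (7 / 10 + t / 2) ≤ √(3 / 2 * X) := by
    apply Real.le_sqrt_of_sq_le
    have h2 : ρ ^ 2 * (7 / 10 + t / 2) ^ 2 ≤ ρ ^ 2 * ((1 + 2 * t) / 2) := by
      apply mul_le_mul_of_nonneg_left _ (sq_nonneg ρ)
      nlinarith only [ht, ht1]
    linarith
  have h3 : 13253 / 5000 * (ρ * (7 / 10 + t / 2)) ≤ K0 * √(3 / 2 * X) :=
    (mul_le_mul_of_nonneg_right K0_ge (by positivity)).trans
      (mul_le_mul_of_nonneg_left h1 ((by norm_num : (0 : ℝ) ≤ 13253 / 5000).trans K0_ge))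
  unfold uu
  have h4 : 0 < 13253 / 5000 * (7 / 10 + t / 2) - 3 + 47 / 100 * ρ ^ 2 - 47 / 100 * t ^ 2 := by
    nlinarith only [hρ, ht, ht1]
  have h5 := mul_pos (by linarith only [hρ] : 0 < ρ) h4
  nlinarith only [h3, h5]

theorem wt_nonneg (ρ : ℝ) : 0 ≤ wt ρ := by unfold wt; positivity

theorem wt_of_lt {ρ : ℝ} (h : ρ ≤ 24 / 25) : wt ρ = 13 / 5 * (24 / 25 - ρ) := by
  unfold wt
  rw [max_eq_left (by linarith)]

theorem pt_of_lt {ρ : ℝ} (h : ρ ≤ 24 / 25) : pt ρ = -(13 / 5 * (24 / 25 - ρ) ^ 2) := by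
  unfold pt
  rw [max_eq_left (by linarith)]

theorem wt_of_ge {ρ : ℝ} (h : 24 / 25 ≤ ρ) : wt ρ = 0 := by
  unfold wt
  rw [max_eq_right (by linarith)]
  ring

theorem pt_of_ge {ρ : ℝ} (h : 24 / 25 ≤ ρ) : pt ρ = 0 := by
  unfold pt
  rw [max_eq_right (by linarith)]
  ring

/-- the lower bound of `X` in terms of the parameters, `ρ < 1` -/
theorem lowX_I {e b P Q B : ℝ} (hP : P = 1 + e * e) (hQ : Q = 1 + b * b) (hB : B = 1 - b * b)
    (hP0 : P ≠ 0) (hQ0 : Q ≠ 0) (hB0 : B ≠ 0) :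
    lowX (2 * e / P) (2 * b / Q) (B / Q) ((1 - e * e) / P) = 2 / 3 +
      4 * (e - b) ^ 3 * (3 * e - e ^ 3 + (1 - 3 * e * e) * b) / (3 * P ^ 3 * (B * Q)) := by
  unfold lowX
  field_simp
  subst hP hQ hB
  ring

/-- the lower bound of `X` in terms of the parameters, `1 ≤ ρ` -/
theorem lowX_III {b ρ Q B : ℝ} (hQ : Q = 1 + b * b) (hB : B = 1 - b * b)
    (hQ0 : Q ≠ 0) (hB0 : B ≠ 0) :
    lowX ρ (2 * b / Q) (B / Q) 0 = 2 / 3 +
      (ρ ^ 2 * (3 * Q - 4 * ρ * b) * Q - 2 * (1 + b ^ 4)) / (3 * Q * B) := by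
  unfold lowX
  field_simp
  subst hQ hB
  ring

theorem th_sub {e b P B : ℝ} (hP : P = 1 + e * e) (hB : B = 1 - b * b) (hP0 : P ≠ 0)
    (hB0 : B ≠ 0) : (1 + b * b - 2 * b * (2 * e / P)) / B - (1 - e * e) / P =
      2 * (e - b) ^ 2 / (P * B) := by
  field_simp
  subst hP hB
  ring

theorem G_h {e b P Q B M : ℝ} (he : e ≠ 0) (hP : P ≠ 0) (hQ : Q ≠ 0) (hB : B ≠ 0) :
    4 * (e - b) ^ 3 * M / (3 * P ^ 3 * (B * Q)) =
      (2 * e / P) * (2 * (e - b) ^ 2 / (P * B)) * ((e - b) * M / (3 * e * P * Q)) := by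
  field_simp
  ring

theorem M_nonneg {e b : ℝ} (hb : 0 ≤ b) (hbe : b < e) (he1 : e < 1) :
    0 ≤ 3 * e - e ^ 3 + (1 - 3 * e * e) * b := by
  have he0 : 0 < e := by linarith
  have h3 : e ^ 3 ≤ e := by
    have h1 : e * e ≤ 1 := by nlinarith only [he1, hb, hbe]
    have h2 : e * (e * e) ≤ e * 1 := mul_le_mul_of_nonneg_left h1 he0.le
    linarith
  rcases le_or_gt (3 * e * e) 1 with h | h
  · have h2 : 0 ≤ (1 - 3 * e * e) * b := mul_nonneg (by linarith only [h]) hb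
    linarith only [hb, hbe, h3, h2]
  · have h1 : (1 - 3 * e * e) * e ≤ (1 - 3 * e * e) * b := by nlinarith only [hbe, h]
    linarith

/-- the pointwise inequality for `ρ < 1` in the parameters -/
theorem pw_lt {e b ρ t C X : ℝ} (hb : 0 ≤ b) (hbe : b < e) (he1 : e < 1)
    (hρ : ρ = 2 * e / (1 + e * e)) (hC : C = (1 - e * e) / (1 + e * e))
    (ht : t = (1 + b * b - 2 * b * ρ) / (1 - b * b))
    (hX : lowX ρ (2 * b / (1 + b * b)) ((1 - b * b) / (1 + b * b)) C ≤ X) :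
    0 < ρ * (t - C) * (uu ρ t C X + pt ρ) + wt ρ * (X - 2 / 3) := by
  have he0 : 0 < e := by (clear * - hb hbe; linarith)
  obtain ⟨P, hP⟩ : ∃ P, P = 1 + e * e := ⟨_, rfl⟩
  obtain ⟨Q, hQ⟩ : ∃ Q, Q = 1 + b * b := ⟨_, rfl⟩
  obtain ⟨B, hB⟩ : ∃ B, B = 1 - b * b := ⟨_, rfl⟩
  obtain ⟨M, hM⟩ : ∃ M, M = 3 * e - e ^ 3 + (1 - 3 * e * e) * b := ⟨_, rfl⟩
  have hP0 : 0 < P := by rw [hP]; (clear * - he0; positivity)
  have hQ0 : 0 < Q := by rw [hQ]; (clear * - hb; positivity)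
  have hB0 : 0 < B := by rw [hB]; nlinarith only [hbe, he1, hb]
  have hM0 : 0 ≤ M := by rw [hM]; exact M_nonneg hb hbe he1
  rw [← hP] at hρ hC
  rw [← hB] at ht
  rw [← hQ, ← hB] at hX
  have hth : t - C = 2 * (e - b) ^ 2 / (P * B) := by
    rw [ht, hC, hρ]
    exact th_sub hP hB hP0.ne' hB0.ne'
  have hX1 : 2 / 3 + 4 * (e - b) ^ 3 * M / (3 * P ^ 3 * (B * Q)) ≤ X := by
    rw [hM, ← lowX_I hP hQ hB hP0.ne' hQ0.ne' hB0.ne', ← hρ, ← hC]
    exact hX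
  obtain ⟨G, hG⟩ : ∃ G, G = 4 * (e - b) ^ 3 * M / (3 * P ^ 3 * (B * Q)) := ⟨_, rfl⟩
  have hw0 : 0 < e - b := by linarith only [hbe]
  have hG0 : 0 ≤ G := by rw [hG]; (clear * - hbe hM0 hP0 hB0 hQ0; positivity)
  have hu := uu_ge (ρ := ρ) (t := t) (C := C) (X := X) hG0 (by rw [hG]; exact hX1)
  have hh0 : 0 < t - C := by rw [hth]; positivity
  have hρ0 : 0 < ρ := by rw [hρ]; positivity
  have hhp : 0 < ρ * (t - C) := mul_pos hρ0 hh0
  have htt : t ^ 2 + t * C + C ^ 2 = 3 * C ^ 2 + 3 * C * (t - C) + (t - C) ^ 2 := by ring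
  rw [htt] at hu
  rw [← hG] at hX1
  rcases lt_or_ge e (3 / 4) with h34 | h34
  · have hρ2 : ρ ≤ 24 / 25 := by
      rw [hρ, div_le_iff₀ hP0, hP]
      nlinarith only [h34]
    rw [wt_of_lt hρ2, pt_of_lt hρ2]
    have hGh : G = ρ * (t - C) * ((e - b) * M / (3 * e * P * Q)) := by
      rw [hG, hth, hρ]
      exact G_h he0.ne' hP0.ne' hQ0.ne' hB0.ne'
    have hreg := region_I hb hbe h34
    rw [← hP, ← hQ, ← hB, ← hM] at hreg
    have halg := algI (e := e) (P := P) (Q := Q) (B := B)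
      (M := M) (w := e - b) he0.ne' hP0.ne' hQ0.ne' hB0.ne'
    have hpos := div_pos hreg (by (clear * - hP0 hB0 hQ0; positivity) : 0 < 150000 * P ^ 6 * (B * Q) ^ 2)
    rw [← halg, ← hG, ← hth, ← hρ, ← hC] at hpos
    have h1 : 13 / 5 * (24 / 25 - ρ) * G ≤ 13 / 5 * (24 / 25 - ρ) * (X - 2 / 3) := by
      apply mul_le_mul_of_nonneg_left _ (by (clear * - hρ2; linarith))
      linarith only [hX1]
    obtain ⟨k, hk⟩ : ∃ k, k = (e - b) * M / (3 * e * P * Q) := ⟨_, rfl⟩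
    rw [← hk] at hGh hpos
    have h3 : 0 < ρ * (t - C) * (uu ρ t C X -
        13 / 5 * (24 / 25 - ρ) ^ 2 + 13 / 5 * (24 / 25 - ρ) * k) := by
      apply mul_pos hhp
      linarith only [hu, hpos]
    have h2 : ρ * (t - C) * (uu ρ t C X + -(13 / 5 * (24 / 25 - ρ) ^ 2)) +
        13 / 5 * (24 / 25 - ρ) * G = ρ * (t - C) * (uu ρ t C X -
        13 / 5 * (24 / 25 - ρ) ^ 2 + 13 / 5 * (24 / 25 - ρ) * k) := by
      have h4 : 13 / 5 * (24 / 25 - ρ) * G =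
        13 / 5 * (24 / 25 - ρ) * (ρ * (t - C) * k) := by rw [← hGh]
      rw [h4]
      ring
    linarith only [h1, h3, h2]
  · have hρ2 : 24 / 25 ≤ ρ := by
      rw [hρ, le_div_iff₀ hP0, hP]
      nlinarith only [h34, he1]
    rw [wt_of_ge hρ2, pt_of_ge hρ2]
    have hreg := region_II hb hbe h34 he1
    rw [← hP, ← hQ, ← hB, ← hM] at hreg
    have halg := algII (e := e) (P := P) (Q := Q) (B := B)
      (M := M) (w := e - b) hP0.ne' hQ0.ne' hB0.ne'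
    have hpos := div_pos hreg (by (clear * - hP0 hB0 hQ0; positivity) : 0 < 10000 * P ^ 6 * (B * Q) ^ 2)
    rw [← halg, ← hG, ← hth, ← hρ, ← hC] at hpos
    have h3 : 0 < ρ * (t - C) * (uu ρ t C X) := by
      apply mul_pos hhp
      (clear * - hu hpos; linarith)
    linarith only [h3]

theorem GxIIIb {b x Q : ℝ} (hQ : Q = 1 + b * b) (hb : b ≠ 0) (hQ0 : Q ≠ 0)
    (h1 : 1 - b ≠ 0) (h2 : 1 + b ≠ 0) :
    (((2 * b * x + (1 - x) * Q) / (2 * b)) ^ 2 *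
      (3 * Q - 4 * ((2 * b * x + (1 - x) * Q) / (2 * b)) * b) * Q - 2 * (1 + b ^ 4)) /
        (3 * Q * ((1 - b) * (1 + b))) =
      (1 - b) ^ 3 * (4 * (b * b) + 12 * Q * b * (1 - x) +
        3 * Q * (Q - 4 * b) * (1 - x) ^ 2 - 2 * Q * (1 - b) ^ 2 * (1 - x) ^ 3) /
        (12 * b ^ 2 * Q * (1 + b)) := by
  field_simp
  subst hQ
  ring

theorem tB {b ρ t : ℝ} (hB : 0 < 1 - b * b) (ht : t = (1 + b * b - 2 * b * ρ) / (1 - b * b)) :
    t * (1 - b * b) = 1 + b * b - 2 * b * ρ := by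
  rw [ht, div_mul_cancel₀ _ hB.ne']

/-- the pointwise inequality for `1 ≤ ρ < 8/5` in the parameters -/
theorem pw_ge {b ρ t X : ℝ} (hb : 0 ≤ b) (hb1 : b < 1) (hρ : 1 ≤ ρ) (hρ1 : ρ < 8 / 5)
    (ht0 : 0 < t)
    (ht : t = (1 + b * b - 2 * b * ρ) / (1 - b * b))
    (hX : lowX ρ (2 * b / (1 + b * b)) ((1 - b * b) / (1 + b * b)) 0 ≤ X) :
    0 < uu ρ t 0 X := by
  obtain ⟨Q, hQ⟩ : ∃ Q, Q = 1 + b * b := ⟨_, rfl⟩
  obtain ⟨B, hB⟩ : ∃ B, B = 1 - b * b := ⟨_, rfl⟩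
  have hQ0 : 0 < Q := by rw [hQ]; (clear * - hb; positivity)
  have hB0 : 0 < B := by rw [hB]; nlinarith only [hb1, hb]
  have htB : t * B = Q - 2 * b * ρ := by
    rw [hB, hQ]
    exact tB (by rw [← hB]; exact hB0) ht
  have ht' : t = (Q - 2 * b * ρ) / B := by rw [hB, hQ]; exact ht
  rw [← hQ, ← hB, lowX_III hQ hB hQ0.ne' hB0.ne'] at hX
  have hN := N_nonneg hb hρ (by rw [← hQ, ← htB]; positivity)
  rw [← hQ] at hN
  obtain ⟨G, hG⟩ : ∃ G, G = (ρ ^ 2 * (3 * Q - 4 * ρ * b) * Q -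
    2 * (1 + b ^ 4)) / (3 * Q * B) := ⟨_, rfl⟩
  have hG0 : 0 ≤ G := by rw [hG]; (clear * - hN hQ0 hB0; positivity)
  rw [← hG] at hX
  have hu := uu_ge (ρ := ρ) (t := t) (C := 0) hG0 hX
  refine lt_of_lt_of_le ?_ hu
  rcases lt_or_ge b (7 / 20) with h720 | h720
  · have hreg := region_IIIa hb h720 hρ hρ1
    rw [← hQ, ← hB] at hreg
    have hpos := div_pos hreg (by (clear * - hQ0 hB0; positivity) : 0 < 160000 * Q ^ 2 * B ^ 2)
    rw [← algIIIa hQ0.ne' hB0.ne', ← hG, ← ht'] at hpos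
    exact hpos
  · have hbp : 0 < b := by linarith only [h720]
    have h1b : 0 < 1 - b := by linarith only [hb1]
    have h2b : 0 < 1 + b := by linarith only [hbp]
    obtain ⟨x, hx⟩ : ∃ x, x = t * (1 + b) / (1 - b) := ⟨_, rfl⟩
    have hx0 : 0 ≤ x := by rw [hx]; (clear * - ht0 h720 hb1; positivity)
    have htx : t = x * (1 - b) / (1 + b) := by
      rw [hx]
      (clear * - h720 h1b ht0; field_simp)
    have h2 : t * B = x * (1 - b) ^ 2 := by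
      have h3 : t * (1 + b) = x * (1 - b) := by
        rw [hx]
        (clear * - h1b h720 ht0; field_simp)
      rw [hB]
      linear_combination (1 - b) * h3
    have h4 : x * (1 - b) ^ 2 = Q - 2 * b * ρ := by rw [← h2, htB]
    have hρx : ρ = (2 * b * x + (1 - x) * Q) / (2 * b) := by
      rw [eq_div_iff (by (clear * - h720; positivity))]
      rw [hQ] at h4 ⊢
      linear_combination h4
    have hx1 : x ≤ 1 := by
      have h3 : x * (1 - b) ^ 2 ≤ 1 * (1 - b) ^ 2 := by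
        rw [h4, hQ]
        nlinarith only [hb, hρ]
      exact le_of_mul_le_mul_right h3 (by positivity)
    have hGx : G = (1 - b) ^ 3 * (4 * (b * b) + 12 * Q * b * (1 - x) +
        3 * Q * (Q - 4 * b) * (1 - x) ^ 2 -
        2 * Q * (1 - b) ^ 2 * (1 - x) ^ 3) / (12 * b ^ 2 * Q * (1 + b)) := by
      rw [hG, hB, show 1 - b * b = (1 - b) * (1 + b) by ring, hρx]
      exact GxIIIb hQ hbp.ne' hQ0.ne' h1b.ne' h2b.ne'
    have hreg := region_IIIb h720 hb1 hx0 hx1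
    rw [← hQ] at hreg
    have hpos := div_pos hreg (by (clear * - h720 hQ0; positivity) : 0 < 2560000 * b ^ 4 * Q ^ 2 * (1 + b) ^ 2)
    rw [← algIIIb hbp.ne' hQ0.ne' h2b.ne', ← hGx, ← htx, ← hρx] at hpos
    exact hpos

theorem param {b ρ t Q B : ℝ} (hQ : Q ≠ 0) (h : t * B = Q - 2 * b * ρ) :
    ρ * (2 * b / Q) + t * (B / Q) = 1 := by
  have h1 : ρ * (2 * b / Q) + t * (B / Q) = (2 * b * ρ + t * B) / Q := by ring
  rw [h1, h, div_eq_one_iff_eq hQ]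
  ring

theorem circ {b Q B : ℝ} (hQ : Q = 1 + b * b) (hB : B = 1 - b * b) (hQ0 : Q ≠ 0) :
    (2 * b / Q) ^ 2 + (B / Q) ^ 2 = 1 := by
  field_simp
  subst hQ hB
  ring

/-- the parameter `b` -/
theorem exists_b {ρ t : ℝ} (hρ : 0 < ρ) (ht0 : 0 < t) (ht1 : t ≤ 1) (h : 1 < t ^ 2 + ρ ^ 2) :
    ∃ b : ℝ, 0 ≤ b ∧ b < 1 ∧ b * ρ ≤ 1 - t ∧ (1 + t) * b ^ 2 ≤ 1 - t ∧
      t * (1 - b * b) = 1 + b * b - 2 * b * ρ := by
  obtain ⟨q, hqd⟩ : ∃ q, q = √(t ^ 2 + ρ ^ 2 - 1) := ⟨_, rfl⟩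
  have hq0 : 0 < q := by rw [hqd]; exact Real.sqrt_pos.2 (by linarith)
  have hq2 : q ^ 2 = t ^ 2 + ρ ^ 2 - 1 := by rw [hqd]; exact Real.sq_sqrt (by linarith only [h])
  have hqρ : q ≤ ρ := by
    by_contra h1
    push Not at h1
    nlinarith only [ht1, hq2, hρ, h1, ht0]
  obtain ⟨b, hbd⟩ : ∃ b, b = (ρ - q) / (1 + t) := ⟨_, rfl⟩
  have hb0 : 0 ≤ b := by rw [hbd]; exact div_nonneg (by linarith only [hqρ]) (by linarith only [ht0])
  have hbt : (1 + t) * b = ρ - q := by rw [hbd]; field_simp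
  have h1t : (1 + t : ℝ) ≠ 0 := by linarith only [ht0]
  have hbq : b * (ρ + q) = 1 - t := by
    have h1 : (1 + t) * (b * (ρ + q)) = (1 + t) * (1 - t) := by
      calc (1 + t) * (b * (ρ + q)) = ((1 + t) * b) * (ρ + q) := by ring
        _ = (ρ - q) * (ρ + q) := by rw [hbt]
        _ = (1 + t) * (1 - t) := by linear_combination -hq2
    exact mul_left_cancel₀ h1t h1
  refine ⟨b, hb0, ?_, ?_, ?_, ?_⟩
  · by_contra h1
    push Not at h1
    have h2 : ρ + q ≤ b * (ρ + q) := by nlinarith only [hq0, h1, hρ, hb0]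
    have h3 : 1 < ρ + t := by nlinarith only [h, hρ, ht0, ht1]
    linarith only [hq0, hbq, h2, h3]
  · nlinarith only [hbq, hb0, hq0]
  · have h1 : (1 + t) * b * b = (ρ - q) * b := by rw [hbt]
    nlinarith only [hbq, h1, hb0, hq0]
  · have h1 : (1 + t) * b * b = (ρ - q) * b := by rw [hbt]
    linear_combination hbq - h1

theorem s_le {b ρ t : ℝ} (hb0 : 0 ≤ b) (hb1 : b < 1) (hρ : 0 < ρ) (h1 : (1 + t) * b ^ 2 ≤ 1 - t)
    (h2 : t * (1 - b * b) = 1 + b * b - 2 * b * ρ) : 2 * b / (1 + b * b) ≤ ρ := by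
  have hQ : 0 < 1 + b * b := by (clear * - hb0; positivity)
  rw [div_le_iff₀ hQ]
  rcases hb0.eq_or_lt with h | h
  · rw [← h]
    simp only [mul_zero]
    positivity
  · have h3 : 0 ≤ (1 - b ^ 2) * ((1 - t) - (1 + t) * b ^ 2) := by
      apply mul_nonneg
      · nlinarith only [hb1, hb0]
      · linarith only [h1]
    have h4 : 0 ≤ 2 * b * (ρ * (1 + b * b) - 2 * b) := by
      refine le_of_le_of_eq h3 ?_
      linear_combination -(1 + b * b) * h2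
    have h5 := nonneg_of_mul_nonneg_right h4 (by positivity)
    linarith only [h5]

/-- the parameter `e` -/
theorem exists_e {ρ C : ℝ} (hρ : 0 < ρ) (hρ1 : ρ < 1) (hC0 : 0 < C) (hC : C ^ 2 = 1 - ρ ^ 2) :
    ∃ e : ℝ, e < 1 ∧ e * ρ = 1 - C ∧ ρ = 2 * e / (1 + e * e) ∧
      C = (1 - e * e) / (1 + e * e) := by
  obtain ⟨e, hed⟩ : ∃ e, e = ρ / (1 + C) := ⟨_, rfl⟩
  have he0 : 0 < e := by rw [hed]; positivity
  have heC : e * (1 + C) = ρ := by rw [hed]; field_simp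
  have h1C : (1 + C : ℝ) ≠ 0 := by linarith only [hC0]
  have heρ : e * ρ = 1 - C := by
    have h1 : (e * ρ) * (1 + C) = (1 - C) * (1 + C) := by
      calc (e * ρ) * (1 + C) = (e * (1 + C)) * ρ := by ring
        _ = ρ * ρ := by rw [heC]
        _ = (1 - C) * (1 + C) := by linear_combination hC
    exact mul_right_cancel₀ h1C h1
  have hP0 : 0 < 1 + e * e := by positivity
  have hP2 : (1 + e * e) * (1 + C) = 2 := by
    have : (1 + e * e) * (1 + C) = 1 + C + e * (e * (1 + C)) := by ring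
    rw [this, heC]
    linarith only [heρ]
  refine ⟨e, ?_, heρ, ?_, ?_⟩
  · by_contra h1
    push Not at h1
    nlinarith only [heC, h1, hρ1, hC0]
  · rw [eq_div_iff hP0.ne']
    rw [← heC]
    linear_combination e * hP2
  · rw [eq_div_iff hP0.ne']
    linear_combination hP2

theorem pointwise {ρ t X : ℝ} (hρ : 0 < ρ) (ht1 : t ≤ 1) (hC : √(1 - ρ ^ 2) < t)
    (H1 : ∀ s c : ℝ, 0 ≤ s → s ≤ ρ → 0 < c → s ^ 2 + c ^ 2 = 1 → ρ * s + t * c = 1 →
      lowX ρ s c (√(1 - ρ ^ 2)) ≤ X)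
    (H2 : 1 ≤ ρ → ρ ^ 2 * (1 + 2 * t) / 3 ≤ X) :
    0 < ρ * (t - √(1 - ρ ^ 2)) * (uu ρ t (√(1 - ρ ^ 2)) X + pt ρ) + wt ρ * (X - 2 / 3) := by
  have ht0 : 0 < t := lt_of_le_of_lt (Real.sqrt_nonneg _) hC
  obtain ⟨C, hCd⟩ : ∃ C, C = √(1 - ρ ^ 2) := ⟨_, rfl⟩
  have hC0 : 0 ≤ C := by rw [hCd]; exact Real.sqrt_nonneg _
  rw [← hCd] at hC H1 ⊢
  have hsq : 1 < t ^ 2 + ρ ^ 2 := by
    rcases lt_or_ge ρ 1 with h | h
    · have h1 : C ^ 2 = 1 - ρ ^ 2 := by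
        rw [hCd]
        exact Real.sq_sqrt (by nlinarith only [h, hρ])
      nlinarith only [h1, hC, hC0]
    · nlinarith only [h, ht0]
  obtain ⟨b, hb0, hb1, hbρ, hbt2, htb⟩ := exists_b hρ ht0 ht1 hsq
  have hB0 : 0 < 1 - b * b := by nlinarith only [ht0, hbt2]
  have hQ0 : 0 < 1 + b * b := by (clear * - hb0; positivity)
  have ht : t = (1 + b * b - 2 * b * ρ) / (1 - b * b) := by
    rw [eq_div_iff hB0.ne', htb]
  have hX1 : lowX ρ (2 * b / (1 + b * b)) ((1 - b * b) / (1 + b * b)) C ≤ X := by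
    apply H1
    · (clear * - hb0; positivity)
    · exact s_le hb0 hb1 hρ hbt2 htb
    · (clear * - hB0 hb0; positivity)
    · exact circ rfl rfl hQ0.ne'
    · exact param hQ0.ne' htb
  rcases lt_or_ge ρ 1 with hρ1 | hρ1
  · have hC2 : C ^ 2 = 1 - ρ ^ 2 := by
      rw [hCd]
      exact Real.sq_sqrt (by nlinarith only [hρ1, hρ])
    have hCp : 0 < C := by
      rcases hC0.lt_or_eq with h | h
      · exact h
      · rw [← h] at hC2
        nlinarith only [hρ1, hC2, hρ]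
    obtain ⟨e, he1, heρ, hρe, hCe⟩ := exists_e hρ hρ1 hCp hC2
    have hbe : b < e := by
      have h2 : b * ρ < e * ρ := by linarith only [hC, hbρ, heρ]
      exact lt_of_mul_lt_mul_right h2 hρ.le
    exact pw_lt hb0 hbe he1 hρe hCe ht hX1
  · have hCz : C = 0 := by
      rw [hCd]
      exact Real.sqrt_eq_zero_of_nonpos (by nlinarith only [hρ1])
    rw [hCz] at hX1 ⊢
    rw [wt_of_ge (by linarith only [hρ1]), pt_of_ge (by linarith only [hρ1])]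
    have hhp : 0 < ρ * (t - 0) := by rw [sub_zero]; exact mul_pos hρ ht0
    suffices h : 0 < uu ρ t 0 X by
      have := mul_pos hhp h
      linarith only [this]
    rcases lt_or_ge ρ (8 / 5) with h85 | h85
    · exact pw_ge hb0 hb1 hρ1 h85 ht0 ht hX1
    · exact region_IIIc h85 ht0.le ht1 (H2 hρ1)

end Vale.Agent.P237.J4
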