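import Vale.Agent.P237.J4.Circ
import Vale.Agent.P237.J4.Point

set_option linter.all false

/-!
# P237: the one-dimensional inequality for dimension four
-/

open Real MeasureTheory Set

namespace Vale.Agent.P237.J4

open AllN

/-- excess of the level function -/
noncomputable def hh (p : ℝ → ℝ) (ρ : ℝ) : ℝ := lev p ρ - √(1 - ρ ^ 2)

/-- the running integral -/
noncomputable def XX (p : ℝ → ℝ) (ρ : ℝ) : ℝ := 2 / 3 + ∫ σ in (0 : ℝ)..ρ, 2 * σ * hh p σ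

theorem lev_int (p : ℝ → ℝ) (a b : ℝ) : IntervalIntegrable (lev p) volume a b :=
  (lev_antitone p).intervalIntegrable

theorem hh_int (p : ℝ → ℝ) (a b : ℝ) : IntervalIntegrable (hh p) volume a b :=
  (lev_int p a b).sub (circ_cont.intervalIntegrable a b)

theorem hh_meas (p : ℝ → ℝ) : Measurable (hh p) :=
  (lev_antitone p).measurable.sub circ_cont.measurable

theorem mul_hh_int (p : ℝ → ℝ) {f : ℝ → ℝ} (hf : Continuous f) (a b : ℝ) :
    IntervalIntegrable (fun σ => f σ * hh p σ) volume a b :=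
  (hh_int p a b).continuousOn_mul hf.continuousOn

theorem XX_cont (p : ℝ → ℝ) : Continuous (XX p) :=
  continuous_const.add (intervalIntegral.continuous_primitive
    (fun a b => mul_hh_int p (by fun_prop) a b) 0)

theorem lev_cube_int (p : ℝ → ℝ) (a b : ℝ) :
    IntervalIntegrable (fun σ => lev p σ ^ 3) volume a b := by
  apply Antitone.intervalIntegrable
  intro x y hxy
  exact pow_le_pow_left₀ (lev_nonneg p y) (lev_antitone p hxy) 3

namespace IsHalf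

variable {p : ℝ → ℝ} (hp : IsHalf p)
include hp

theorem hh_nonneg {ρ : ℝ} (hρ : 0 ≤ ρ) : 0 ≤ hh p ρ := sub_nonneg.2 (hp.lev_ge hρ)

theorem hh_contAt {ρ : ℝ} (hρ : ρ ∈ Ioo 0 (p 0)) : ContinuousAt (hh p) ρ :=
  (hp.lev_continuousOn.continuousAt (isOpen_Ioo.mem_nhds hρ)).sub circ_cont.continuousAt

theorem XX_deriv {ρ : ℝ} (hρ : ρ ∈ Ioo 0 (p 0)) : HasDerivAt (XX p) (2 * ρ * hh p ρ) ρ := by
  have h1 : HasDerivAt (fun u => ∫ σ in (0 : ℝ)..u, 2 * σ * hh p σ) (2 * ρ * hh p ρ) ρ := by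
    apply intervalIntegral.integral_hasDerivAt_right (mul_hh_int p (by fun_prop) 0 ρ)
    · have hm : Measurable fun σ => 2 * σ * hh p σ :=
        (by fun_prop : Measurable fun σ : ℝ => 2 * σ).mul (hh_meas p)
      exact hm.stronglyMeasurable.stronglyMeasurableAtFilter
    · exact (by fun_prop : ContinuousAt (fun σ : ℝ => 2 * σ) ρ).mul (hp.hh_contAt hρ)
  have h2 := h1.const_add (2 / 3)
  exact h2

theorem XX_ge {ρ : ℝ} (hρ : 0 ≤ ρ) : 2 / 3 ≤ XX p ρ := by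
  unfold XX
  have : 0 ≤ ∫ σ in (0 : ℝ)..ρ, 2 * σ * hh p σ :=
    intervalIntegral.integral_nonneg hρ fun σ hσ => by
      have := hp.hh_nonneg hσ.1
      have := hσ.1
      positivity
  linarith

/-- the pieces of the functional in level form -/
theorem int_pow_hh (k : ℕ) : ∫ ρ in (0 : ℝ)..p 0, (((k : ℝ) + 1) * ρ ^ k) * hh p ρ =
    (∫ y in (0 : ℝ)..1, p y ^ (k + 1)) - aInt (k + 1) / 2 := by
  rw [hp.int_pow k, ← circ_pow k hp.zero_ge, ← intervalIntegral.integral_sub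
    ((lev_int p _ _).continuousOn_mul (by fun_prop))
    ((by fun_prop : Continuous fun ρ : ℝ => ((k : ℝ) + 1) * ρ ^ k * √(1 - ρ ^ 2)).intervalIntegrable
      _ _)]
  refine intervalIntegral.integral_congr fun ρ _ => ?_
  simp only [hh]
  ring

theorem XX_end : XX p (p 0) = ∫ y in (0 : ℝ)..1, p y ^ 2 := by
  have h := hp.int_pow_hh 1
  have h2 : (∫ σ in (0 : ℝ)..p 0, 2 * σ * hh p σ) =
      ∫ ρ in (0 : ℝ)..p 0, (((1 : ℕ) : ℝ) + 1) * ρ ^ 1 * hh p ρ := by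
    refine intervalIntegral.integral_congr fun ρ _ => ?_
    norm_num
  unfold XX
  rw [h2, h, show (1 + 1 : ℕ) = 2 from rfl, aInt_two]
  ring

theorem int_cube : ∫ ρ in (0 : ℝ)..p 0, 3 * ρ ^ 2 * ((lev p ρ ^ 3 - √(1 - ρ ^ 2) ^ 3) / 3) =
    (∫ y in (0 : ℝ)..1, y ^ 2 * p y ^ 3) - (aInt 3 - aInt 5) / 2 := by
  have h1 := hp.int_sq_mul 2
  have h2 := circ_sq_mul 2 hp.zero_ge
  norm_num at h1 h2
  rw [h1, ← h2, ← intervalIntegral.integral_sub]
  · refine intervalIntegral.integral_congr fun ρ _ => ?_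
    ring
  · exact ((lev_cube_int p _ _).div_const 3).continuousOn_mul (by fun_prop)
  · exact (by fun_prop : Continuous fun ρ : ℝ =>
      3 * ρ ^ 2 * (√(1 - ρ ^ 2) ^ 3 / 3)).intervalIntegrable _ _

/-- lower bound of the running integral by the tangent line -/
theorem XX_ge_lowX {ρ s c : ℝ} (hρ : ρ ∈ Icc 0 (p 0)) (hs : 0 ≤ s) (hsρ : s ≤ ρ) (hc : 0 < c)
    (hsc : s ^ 2 + c ^ 2 = 1) (ht : ρ * s + lev p ρ * c = 1) :
    lowX ρ s c (√(1 - ρ ^ 2)) ≤ XX p ρ := by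
  have hcs : √(1 - s ^ 2) = c := by
    rw [show 1 - s ^ 2 = c ^ 2 by linarith, Real.sqrt_sq hc.le]
  have hline : ∀ σ ∈ Icc s ρ, (1 - σ * s) / c ≤ lev p σ := by
    intro σ hσ
    rcases hsρ.eq_or_lt with h | h
    · have h1 : σ = ρ := le_antisymm hσ.2 (by rw [← h]; exact hσ.1)
      rw [h1, div_le_iff₀ hc]
      linarith
    · have hd : 0 < ρ - s := by linarith
      have h2 := hp.lev_concave.2 (⟨hs, hsρ.trans hρ.2⟩ : s ∈ Icc 0 (p 0)) hρ
        (div_nonneg (by linarith [hσ.2]) hd.le : 0 ≤ (ρ - σ) / (ρ - s))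
        (div_nonneg (by linarith [hσ.1]) hd.le : 0 ≤ (σ - s) / (ρ - s))
        (by field_simp; ring)
      simp only [smul_eq_mul] at h2
      have h3 : (ρ - σ) / (ρ - s) * s + (σ - s) / (ρ - s) * ρ = σ := by
        field_simp
        ring
      rw [h3] at h2
      refine le_trans ?_ h2
      have h4 : c ≤ lev p s := by
        rw [← hcs]
        exact hp.lev_ge hs
      have h5 : (ρ - σ) / (ρ - s) * c ≤ (ρ - σ) / (ρ - s) * lev p s :=
        mul_le_mul_of_nonneg_left h4 (div_nonneg (by linarith [hσ.2]) hd.le)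
      have h6 : lev p ρ = (1 - ρ * s) / c := by
        rw [eq_div_iff hc.ne']
        linarith
      have h7 : (1 - σ * s) / c = (ρ - σ) / (ρ - s) * c +
          (σ - s) / (ρ - s) * ((1 - ρ * s) / c) := by
        field_simp
        linear_combination -(ρ - σ) * hsc
      rw [h7, h6]
      linarith
  have hcont2 : ∀ a b : ℝ, IntervalIntegrable (fun σ => 2 * σ * hh p σ) volume a b :=
    fun a b => mul_hh_int p (by fun_prop) a b
  have hsplit : XX p ρ = 2 / 3 + ((∫ σ in (0 : ℝ)..s, 2 * σ * hh p σ) +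
      ∫ σ in s..ρ, 2 * σ * hh p σ) := by
    unfold XX
    rw [intervalIntegral.integral_add_adjacent_intervals (hcont2 0 s) (hcont2 s ρ)]
  have hfst : 0 ≤ ∫ σ in (0 : ℝ)..s, 2 * σ * hh p σ :=
    intervalIntegral.integral_nonneg hs fun σ hσ => by
      have := hp.hh_nonneg hσ.1
      have := hσ.1
      positivity
  have hsnd : ∫ σ in s..ρ, (2 * σ * ((1 - σ * s) / c) - 2 * σ * √(1 - σ ^ 2)) ≤
      ∫ σ in s..ρ, 2 * σ * hh p σ := by
    apply intervalIntegral.integral_mono_on hsρ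
    · exact (by fun_prop : Continuous fun σ : ℝ =>
        2 * σ * ((1 - σ * s) / c) - 2 * σ * √(1 - σ ^ 2)).intervalIntegrable _ _
    · exact hcont2 s ρ
    · intro σ hσ
      have h1 := hline σ hσ
      have h2 : 0 ≤ 2 * σ := by linarith [hσ.1]
      have h3 := mul_le_mul_of_nonneg_left h1 h2
      unfold hh
      linarith
  have hval : ∫ σ in s..ρ, (2 * σ * ((1 - σ * s) / c) - 2 * σ * √(1 - σ ^ 2)) =
      (ρ ^ 2 - s ^ 2 - 2 / 3 * s * (ρ ^ 3 - s ^ 3)) / c -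
        2 / 3 * (c ^ 3 - √(1 - ρ ^ 2) ^ 3) := by
    rw [intervalIntegral.integral_sub
      ((by fun_prop : Continuous fun σ : ℝ => 2 * σ * ((1 - σ * s) / c)).intervalIntegrable _ _)
      ((by fun_prop : Continuous fun σ : ℝ => 2 * σ * √(1 - σ ^ 2)).intervalIntegrable _ _),
      circ_prim hs hsρ, hcs]
    congr 1
    have h1 : ∀ x ∈ uIcc s ρ, HasDerivAt (fun σ : ℝ => (σ ^ 2 - 2 / 3 * s * σ ^ 3) / c)
        (2 * x * ((1 - x * s) / c)) x := by
      intro x _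
      have h2 := ((hasDerivAt_pow 2 x).sub ((hasDerivAt_pow 3 x).const_mul (2 / 3 * s))).div_const c
      refine h2.congr_deriv ?_
      norm_num
      ring
    rw [intervalIntegral.integral_eq_sub_of_hasDerivAt h1
      ((by fun_prop : Continuous fun σ : ℝ => 2 * σ * ((1 - σ * s) / c)).intervalIntegrable _ _)]
    ring
  have hlow : lowX ρ s c (√(1 - ρ ^ 2)) = 2 / 3 +
      ((ρ ^ 2 - s ^ 2 - 2 / 3 * s * (ρ ^ 3 - s ^ 3)) / c -
        2 / 3 * (c ^ 3 - √(1 - ρ ^ 2) ^ 3)) := by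
    unfold lowX
    field_simp
    have h1 : s ^ 2 = 1 - c ^ 2 := by linarith
    have h2 : s ^ 4 = (1 - c ^ 2) ^ 2 := by rw [← h1]; ring
    linear_combination 3 * h1 - 2 * h2
  rw [hlow, hsplit]
  linarith

/-- lower bound of the running integral beyond `ρ = 1` -/
theorem XX_ge_cone {ρ : ℝ} (hρ : ρ ∈ Icc 0 (p 0)) (h1 : 1 ≤ ρ) :
    ρ ^ 2 * (1 + 2 * lev p ρ) / 3 ≤ XX p ρ := by
  have hρ0 : 0 < ρ := by linarith
  have hline : ∀ σ ∈ Icc 0 ρ, 1 - (1 - lev p ρ) * σ / ρ ≤ lev p σ := by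
    intro σ hσ
    have h2 := hp.lev_concave.2 (⟨le_rfl, zero_le_one.trans hp.zero_ge⟩ : (0 : ℝ) ∈ Icc 0 (p 0)) hρ
      (div_nonneg (by linarith [hσ.2]) hρ0.le : 0 ≤ (ρ - σ) / ρ)
      (div_nonneg hσ.1 hρ0.le : 0 ≤ σ / ρ)
      (by field_simp; ring)
    simp only [smul_eq_mul, mul_zero, zero_add, hp.lev_zero, mul_one] at h2
    have h3 : σ / ρ * ρ = σ := by field_simp
    rw [h3] at h2
    refine le_trans (le_of_eq ?_) h2
    field_simp
    ring
  have hcont2 : ∀ a b : ℝ, IntervalIntegrable (fun σ => 2 * σ * hh p σ) volume a b :=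
    fun a b => mul_hh_int p (by fun_prop) a b
  have hsnd : ∫ σ in (0 : ℝ)..ρ, (2 * σ * (1 - (1 - lev p ρ) * σ / ρ) - 2 * σ * √(1 - σ ^ 2)) ≤
      ∫ σ in (0 : ℝ)..ρ, 2 * σ * hh p σ := by
    apply intervalIntegral.integral_mono_on hρ0.le
    · exact (by fun_prop : Continuous fun σ : ℝ =>
        2 * σ * (1 - (1 - lev p ρ) * σ / ρ) - 2 * σ * √(1 - σ ^ 2)).intervalIntegrable _ _
    · exact hcont2 0 ρ
    · intro σ hσ
      have h1 := hline σ hσ
      have h2 : 0 ≤ 2 * σ := by linarith [hσ.1]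
      have h3 := mul_le_mul_of_nonneg_left h1 h2
      unfold hh
      linarith
  have hval : ∫ σ in (0 : ℝ)..ρ, (2 * σ * (1 - (1 - lev p ρ) * σ / ρ) - 2 * σ * √(1 - σ ^ 2)) =
      ρ ^ 2 * (1 + 2 * lev p ρ) / 3 - 2 / 3 := by
    rw [intervalIntegral.integral_sub
      ((by fun_prop : Continuous fun σ : ℝ =>
        2 * σ * (1 - (1 - lev p ρ) * σ / ρ)).intervalIntegrable _ _)
      ((by fun_prop : Continuous fun σ : ℝ => 2 * σ * √(1 - σ ^ 2)).intervalIntegrable _ _),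
      circ_prim le_rfl hρ0.le]
    have h1 : ∀ x ∈ uIcc 0 ρ, HasDerivAt
        (fun σ : ℝ => σ ^ 2 - 2 / 3 * ((1 - lev p ρ) / ρ) * σ ^ 3)
        (2 * x * (1 - (1 - lev p ρ) * x / ρ)) x := by
      intro x _
      have h2 := (hasDerivAt_pow 2 x).sub
        ((hasDerivAt_pow 3 x).const_mul (2 / 3 * ((1 - lev p ρ) / ρ)))
      refine h2.congr_deriv ?_
      norm_num
      ring
    rw [intervalIntegral.integral_eq_sub_of_hasDerivAt h1
      ((by fun_prop : Continuous fun σ : ℝ =>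
        2 * σ * (1 - (1 - lev p ρ) * σ / ρ)).intervalIntegrable _ _)]
    rw [Real.sqrt_eq_zero_of_nonpos (by nlinarith : 1 - ρ ^ 2 ≤ 0)]
    simp only [ne_eq, OfNat.ofNat_ne_zero, not_false_eq_true, zero_pow, sub_zero, sqrt_one,
      one_pow, mul_one, mul_zero]
    field_simp
    ring
  unfold XX
  linarith

/-- the integrand -/
noncomputable def ph (p : ℝ → ℝ) (ρ : ℝ) : ℝ :=
  ρ * hh p ρ * (uu ρ (lev p ρ) (√(1 - ρ ^ 2)) (XX p ρ) + pt ρ) + wt ρ * (XX p ρ - 2 / 3)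

omit hp in
theorem wt_cont : Continuous wt := by
  unfold wt
  fun_prop

omit hp in
theorem pt_cont : Continuous pt := by
  unfold pt
  fun_prop

omit hp in
theorem pt_deriv {x : ℝ} (hx : x ≠ 24 / 25) : HasDerivAt pt (2 * wt x) x := by
  rcases lt_or_gt_of_ne hx with h | h
  · have h1 : pt =ᶠ[nhds x] fun y => -(13 / 5 * (24 / 25 - y) ^ 2) := by
      filter_upwards [gt_mem_nhds h] with y hy
      exact pt_of_lt (le_of_lt hy)
    rw [wt_of_lt h.le]
    refine HasDerivAt.congr_of_eventuallyEq ?_ h1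
    have h2 := ((((hasDerivAt_id x).const_sub (24 / 25)).pow 2).const_mul (13 / 5)).neg
    refine h2.congr_deriv ?_
    simp
    ring
  · have h1 : pt =ᶠ[nhds x] fun _ => 0 := by
      filter_upwards [lt_mem_nhds h] with y hy
      exact pt_of_ge (le_of_lt hy)
    rw [wt_of_ge h.le, mul_zero]
    exact (hasDerivAt_const x (0 : ℝ)).congr_of_eventuallyEq h1

theorem ftc_main :
    ∫ ρ in (0 : ℝ)..p 0, ((K0 * √(3 / 2 * XX p ρ) + pt ρ) * ρ * hh p ρ +
      wt ρ * (XX p ρ - 2 / 3)) =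
    3 * π / 16 * ((3 / 2 * XX p (p 0)) * √(3 / 2 * XX p (p 0))) - 3 * π / 16 := by
  have hR := hp.zero_ge
  have hX := XX_cont p
  have hpt := pt_cont
  have hwt := wt_cont
  have h := integral_eq_of_hasDerivAt_off_countable_of_le
    (fun ρ : ℝ => 3 * π / 16 * ((3 / 2 * XX p ρ) * √(3 / 2 * XX p ρ)) +
      pt ρ / 2 * (XX p ρ - 2 / 3))
    (fun ρ => (K0 * √(3 / 2 * XX p ρ) + pt ρ) * ρ * hh p ρ + wt ρ * (XX p ρ - 2 / 3))
    (zero_le_one.trans hR) (s := {24 / 25}) (countable_singleton _) (by fun_prop) ?_ ?_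
  · rw [h]
    have h0 : XX p 0 = 2 / 3 := by simp [XX]
    have h1 : pt (p 0) = 0 := pt_of_ge (by linarith)
    rw [h0, h1]
    norm_num
  · rintro x ⟨hx, hx1⟩
    have h1 := hp.XX_deriv hx
    have h2 := pt_deriv (show x ≠ 24 / 25 from hx1)
    have hX0 : 2 / 3 ≤ XX p x := hp.XX_ge hx.1.le
    have hY0 : (3 / 2 * XX p x) ≠ 0 := by
      have : 0 < 3 / 2 * XX p x := by linarith
      exact this.ne'
    have h3 := h1.const_mul (3 / 2)
    have h4 := h3.sqrt hY0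
    have h5 := (h3.mul h4).const_mul (3 * π / 16)
    have h6 := (h2.div_const 2).mul (h1.sub_const (2 / 3))
    refine (h5.add h6).congr_deriv ?_
    have hs : √(3 / 2 * XX p x) ≠ 0 := by
      have : 0 < 3 / 2 * XX p x := by linarith
      exact (Real.sqrt_pos.2 this).ne'
    have hsq : √(3 / 2 * XX p x) ^ 2 = 3 / 2 * XX p x := Real.sq_sqrt (by linarith)
    have h7 : 3 / 2 * XX p x * (3 / 2 * (2 * x * hh p x) / (2 * √(3 / 2 * XX p x))) =
        3 / 2 * x * hh p x * √(3 / 2 * XX p x) := by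
      rw [← mul_div_assoc, div_eq_iff (by positivity)]
      linear_combination (-3 * x * hh p x) * hsq
    rw [h7]
    unfold K0
    ring
  · apply IntervalIntegrable.add
    · exact (hh_int p _ _).continuousOn_mul (by fun_prop)
    · exact (by fun_prop : Continuous fun ρ : ℝ => wt ρ * (XX p ρ - 2 / 3)).intervalIntegrable _ _

theorem ph_eq (ρ : ℝ) : ph p ρ = ((K0 * √(3 / 2 * XX p ρ) + pt ρ) * ρ * hh p ρ +
      wt ρ * (XX p ρ - 2 / 3)) - 3 * ρ ^ 2 * hh p ρ + 47 / 500 * (5 * ρ ^ 4 * hh p ρ -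
        5 * (3 * ρ ^ 2 * ((lev p ρ ^ 3 - √(1 - ρ ^ 2) ^ 3) / 3))) := by
  unfold ph uu hh
  ring

theorem i1 : IntervalIntegrable (fun ρ => (K0 * √(3 / 2 * XX p ρ) + pt ρ) * ρ * hh p ρ +
      wt ρ * (XX p ρ - 2 / 3)) volume 0 (p 0) := by
  have hX := XX_cont p
  have hpt := pt_cont
  have hwt := wt_cont
  apply IntervalIntegrable.add
  · exact (hh_int p _ _).continuousOn_mul (by fun_prop)
  · exact (by fun_prop : Continuous fun ρ : ℝ => wt ρ * (XX p ρ - 2 / 3)).intervalIntegrable _ _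

theorem i2 : IntervalIntegrable (fun ρ => 3 * ρ ^ 2 * hh p ρ) volume 0 (p 0) :=
  mul_hh_int p (by fun_prop) _ _

theorem i3 : IntervalIntegrable (fun ρ => 5 * ρ ^ 4 * hh p ρ) volume 0 (p 0) :=
  mul_hh_int p (by fun_prop) _ _

theorem i4 : IntervalIntegrable
    (fun ρ => 3 * ρ ^ 2 * ((lev p ρ ^ 3 - √(1 - ρ ^ 2) ^ 3) / 3)) volume 0 (p 0) := by
  have h1 : IntervalIntegrable (fun ρ => lev p ρ ^ 3 - √(1 - ρ ^ 2) ^ 3) volume 0 (p 0) :=
    (lev_cube_int p _ _).sub ((circ_cont.pow 3).intervalIntegrable _ _)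
  exact (h1.div_const 3).continuousOn_mul (by fun_prop)

theorem ph_int : IntervalIntegrable (ph p) volume 0 (p 0) := by
  have h := (hp.i1.sub hp.i2).add ((hp.i3.sub (hp.i4.const_mul 5)).const_mul (47 / 500))
  refine h.congr ?_
  intro ρ _
  simp only
  rw [hp.ph_eq]

theorem integral_ph : ∫ ρ in (0 : ℝ)..p 0, ph p ρ =
    3 * π / 16 * ((3 / 2 * ∫ y in (0 : ℝ)..1, p y ^ 2) * √(3 / 2 * ∫ y in (0 : ℝ)..1, p y ^ 2)) -
      (∫ y in (0 : ℝ)..1, p y ^ 3) + 47 / 500 * ((∫ y in (0 : ℝ)..1, p y ^ 5) -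
        5 * ∫ y in (0 : ℝ)..1, y ^ 2 * p y ^ 3) := by
  have e1 := hp.ftc_main
  have e2 := hp.int_pow_hh 2
  have e3 := hp.int_pow_hh 4
  have e4 := hp.int_cube
  rw [hp.XX_end] at e1
  norm_num at e2 e3
  rw [aInt_three] at e2
  have e5 : ∫ ρ in (0 : ℝ)..p 0, ph p ρ = (∫ ρ in (0 : ℝ)..p 0,
      ((K0 * √(3 / 2 * XX p ρ) + pt ρ) * ρ * hh p ρ + wt ρ * (XX p ρ - 2 / 3))) -
      (∫ ρ in (0 : ℝ)..p 0, 3 * ρ ^ 2 * hh p ρ) + 47 / 500 *
      ((∫ ρ in (0 : ℝ)..p 0, 5 * ρ ^ 4 * hh p ρ) -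
        5 * ∫ ρ in (0 : ℝ)..p 0, 3 * ρ ^ 2 * ((lev p ρ ^ 3 - √(1 - ρ ^ 2) ^ 3) / 3)) := by
    rw [← intervalIntegral.integral_sub hp.i1 hp.i2, ← intervalIntegral.integral_const_mul 5,
      ← intervalIntegral.integral_sub hp.i3 (hp.i4.const_mul 5),
      ← intervalIntegral.integral_const_mul (47 / 500),
      ← intervalIntegral.integral_add (hp.i1.sub hp.i2)
        ((hp.i3.sub (hp.i4.const_mul 5)).const_mul (47 / 500))]
    refine intervalIntegral.integral_congr fun ρ _ => ?_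
    exact hp.ph_eq ρ
  have h5 := aInt_five
  rw [e5, e1, e2, e3, e4]
  linear_combination (-47 / 1000 : ℝ) * h5

theorem ph_nonneg {ρ : ℝ} (hρ : ρ ∈ Ioc 0 (p 0)) : 0 ≤ ph p ρ ∧ (ph p ρ = 0 → hh p ρ = 0) := by
  have hρ0 : 0 < ρ := hρ.1
  have h1 := hp.hh_nonneg hρ0.le
  have hX0 := hp.XX_ge hρ0.le
  rcases h1.eq_or_lt with h | h
  · refine ⟨?_, fun _ => h.symm⟩
    unfold ph
    rw [← h]
    have := mul_nonneg (wt_nonneg ρ) (by linarith : 0 ≤ XX p ρ - 2 / 3)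
    linarith
  · have h2 : 0 < ph p ρ := by
      unfold ph hh
      apply pointwise hρ0 (lev_le_one p ρ)
      · unfold hh at h
        linarith
      · intro s c hs hsρ hc hsc ht
        exact hp.XX_ge_lowX ⟨hρ0.le, hρ.2⟩ hs hsρ hc hsc ht
      · intro h3
        exact hp.XX_ge_cone ⟨hρ0.le, hρ.2⟩ h3
    exact ⟨h2.le, fun h3 => absurd h3 h2.ne'⟩

/-- The inequality in half form, with the equality case. -/
theorem half_ineq (hM : ∫ y in (0 : ℝ)..1, p y ^ 5 ≤ 5 * ∫ y in (0 : ℝ)..1, y ^ 2 * p y ^ 3) :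
    (∫ y in (0 : ℝ)..1, p y ^ 3) ≤ 3 * π / 16 * ((3 / 2 * ∫ y in (0 : ℝ)..1, p y ^ 2) *
      √(3 / 2 * ∫ y in (0 : ℝ)..1, p y ^ 2)) ∧
    (3 * π / 16 * ((3 / 2 * ∫ y in (0 : ℝ)..1, p y ^ 2) *
      √(3 / 2 * ∫ y in (0 : ℝ)..1, p y ^ 2)) ≤ (∫ y in (0 : ℝ)..1, p y ^ 3) →
      ∫ y in (0 : ℝ)..1, p y ^ 3 = 3 * π / 16) := by
  have hR0 : 0 ≤ p 0 := zero_le_one.trans hp.zero_ge
  have h0 : 0 ≤ ∫ ρ in (0 : ℝ)..p 0, ph p ρ := by
    rw [intervalIntegral.integral_of_le hR0]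
    exact setIntegral_nonneg measurableSet_Ioc fun ρ hρ => (hp.ph_nonneg hρ).1
  have h1 := hp.integral_ph
  refine ⟨by linarith, fun h2 => ?_⟩
  have h3 : ∫ ρ in (0 : ℝ)..p 0, ph p ρ = 0 := le_antisymm (by linarith) h0
  rw [intervalIntegral.integral_of_le hR0] at h3
  have h4 : IntegrableOn (ph p) (Ioc 0 (p 0)) := by
    have := hp.ph_int
    rwa [intervalIntegrable_iff_integrableOn_Ioc_of_le hR0] at this
  have h5 := (setIntegral_eq_zero_iff_of_nonneg_ae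
    ((ae_restrict_iff' measurableSet_Ioc).2 (ae_of_all _ fun ρ hρ => (hp.ph_nonneg hρ).1)) h4).1 h3
  have h6 := hp.int_pow_hh 2
  norm_num at h6
  rw [aInt_three] at h6
  have h7 : ∫ ρ in (0 : ℝ)..p 0, 3 * ρ ^ 2 * hh p ρ = 0 := by
    rw [intervalIntegral.integral_of_le hR0]
    apply integral_eq_zero_of_ae
    filter_upwards [h5, ae_restrict_mem measurableSet_Ioc] with ρ h8 h9
    simp only [Pi.zero_apply] at h8 ⊢
    rw [(hp.ph_nonneg h9).2 h8, mul_zero]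
  rw [h7] at h6
  linarith

end IsHalf

theorem one_d_john3 {r : ℝ → ℝ} (hc : ConcaveOn ℝ (Icc (-1) 1) r) (he : ∀ y, r (-y) = r y)
    (hge : ∀ y ∈ Icc (-1 : ℝ) 1, √(1 - y ^ 2) ≤ r y)
    (hM : ∫ y in (-1 : ℝ)..1, r y ^ 5 ≤ 5 * ∫ y in (-1 : ℝ)..1, y ^ 2 * r y ^ 3) :
    aInt 2 ^ 3 * (∫ y in (-1 : ℝ)..1, r y ^ 3) ^ 2 ≤
      (∫ y in (-1 : ℝ)..1, r y ^ 2) ^ 3 * aInt 3 ^ 2 ∧
    ((∫ y in (-1 : ℝ)..1, r y ^ 2) ^ 3 * aInt 3 ^ 2 ≤
      aInt 2 ^ 3 * (∫ y in (-1 : ℝ)..1, r y ^ 3) ^ 2 →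
      ∫ y in (-1 : ℝ)..1, r y ^ 3 = aInt 3) := by
  have hc' : ConcaveOn ℝ (Icc 0 1) r :=
    hc.subset (Icc_subset_Icc_left (by norm_num)) (convex_Icc 0 1)
  have hp' : ∀ y ∈ Icc (0 : ℝ) 1, √(1 - y ^ 2) ≤ r y :=
    fun y hy => hge y ⟨by linarith [hy.1], hy.2⟩
  have hanti : AntitoneOn r (Icc 0 1) := by
    intro x hx y hy hxy
    rcases hy.1.eq_or_lt with h0 | h0
    · have : x = y := le_antisymm hxy (by rw [← h0]; exact hx.1)
      rw [this]
    · have h1 := hc.2 (⟨by linarith [hy.1, hy.2], by linarith [hy.1, hy.2]⟩ : -y ∈ Icc (-1 : ℝ) 1)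
        (⟨by linarith [hy.1], hy.2⟩ : y ∈ Icc (-1 : ℝ) 1)
        (div_nonneg (by linarith) (by linarith) : 0 ≤ (y - x) / (2 * y))
        (div_nonneg (by linarith [hx.1]) (by linarith) : 0 ≤ (y + x) / (2 * y))
        (by field_simp; ring)
      simp only [smul_eq_mul, he] at h1
      have h2 : (y - x) / (2 * y) * -y + (y + x) / (2 * y) * y = x := by
        field_simp
        ring
      have h3 : (y - x) / (2 * y) * r y + (y + x) / (2 * y) * r y = r y := by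
        field_simp
        ring
      rw [h2, h3] at h1
      exact h1
  have hp : IsHalf r := ⟨hc', hanti, hp'⟩
  have hp0 : ∀ y ∈ Icc (0 : ℝ) 1, 0 ≤ r y := fun y hy => hp.nonneg hy
  have hint := pow_intervalIntegrable hc' hp0
  have hyp2 : IntervalIntegrable (fun y => y ^ 2 * r y ^ 3) volume 0 1 :=
    (hint 3).continuousOn_mul (by fun_prop)
  rw [integral_even_eq (by intro y; simp [he]) (hint 5),
    integral_even_eq (by intro y; simp [he]) hyp2] at hM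
  rw [integral_even_eq (by intro y; simp [he]) (hint 2),
    integral_even_eq (by intro y; simp [he]) (hint 3), aInt_two, aInt_three]
  obtain ⟨h1, h2⟩ := hp.half_ineq (by linarith)
  obtain ⟨A, hA⟩ : ∃ A, A = ∫ y in (0 : ℝ)..1, r y ^ 2 := ⟨_, rfl⟩
  obtain ⟨B, hB⟩ : ∃ B, B = ∫ y in (0 : ℝ)..1, r y ^ 3 := ⟨_, rfl⟩
  rw [← hA, ← hB] at h1 h2 ⊢
  have hB0 : 0 ≤ B := by
    rw [hB]
    exact intervalIntegral.integral_nonneg zero_le_one fun y hy => pow_nonneg (hp0 y hy) 3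
  have hA0 : 0 ≤ A := by
    rw [hA]
    exact intervalIntegral.integral_nonneg zero_le_one fun y hy => pow_nonneg (hp0 y hy) 2
  have hsq : √(3 / 2 * A) ^ 2 = 3 / 2 * A := Real.sq_sqrt (by positivity)
  have hS0 : 0 ≤ √(3 / 2 * A) := Real.sqrt_nonneg _
  have hval : (3 * π / 16 * ((3 / 2 * A) * √(3 / 2 * A))) ^ 2 =
      (3 * π / 16) ^ 2 * (3 / 2 * A) ^ 3 := by
    have : (3 * π / 16 * ((3 / 2 * A) * √(3 / 2 * A))) ^ 2 =
      (3 * π / 16) ^ 2 * (3 / 2 * A) ^ 2 * √(3 / 2 * A) ^ 2 := by ring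
    rw [this, hsq]
    ring
  constructor
  · have h3 := pow_le_pow_left₀ hB0 h1 2
    rw [hval] at h3
    nlinarith
  · intro h4
    have h5 : (3 * π / 16 * ((3 / 2 * A) * √(3 / 2 * A))) ^ 2 ≤ B ^ 2 := by
      rw [hval]
      nlinarith
    have h6 := (pow_le_pow_iff_left₀ (by positivity) hB0 two_ne_zero).1 h5
    have h7 := h2 h6
    rw [h7]
    ring

end Vale.Agent.P237.J4
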