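import Vale.Agent.P237.J4.MainJ
import Vale.Agent.P237.J4.OneD4

set_option linter.all false

/-!
# P237: Petty's conjecture in dimension four
-/

open MeasureTheory Metric Set Module
open scoped Pointwise

namespace Vale.Agent.P237.J4

open AllN

theorem oneJohn_three : OneJohn 3 := by
  intro r hc he hge hM
  norm_num at hM
  exact one_d_john3 hc he hge hM

/-- The inequality in dimension four. -/
theorem pettyIneq_four : PettyIneq 4 := pettyIneq_four_of oneJohn_three

theorem petty_four {V : Type} [NormedAddCommGroup V] [InnerProductSpace ℝ V]
    [FiniteDimensional ℝ V] [MeasurableSpace V] [BorelSpace V] (hd : finrank ℝ V = 4) :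
    Statement.PettyIn V 4 := petty_four_of oneJohn_three hd

end Vale.Agent.P237.J4
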