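import Vale.Agent.P237.J4.Moment4
import Vale.Agent.P237.Glue3
import Vale.Agent.P237.AllN.MainN

/-!
# P237: the contact direction of the John ellipsoid, in all dimensions
-/

open MeasureTheory Metric Set Module
open scoped Pointwise

namespace Vale.Agent.P237.J4

open AllN

variable {V : Type*} [NormedAddCommGroup V] [InnerProductSpace ℝ V] [FiniteDimensional ℝ V]
  [MeasurableSpace V] [BorelSpace V]

/-- The one-dimensional statement (John position form) for the step from dimension `m` to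
dimension `m + 1`. -/
def OneJohn (m : ℕ) : Prop := ∀ r : ℝ → ℝ, ConcaveOn ℝ (Icc (-1) 1) r → (∀ y, r (-y) = r y) →
  (∀ y ∈ Icc (-1 : ℝ) 1, Real.sqrt (1 - y ^ 2) ≤ r y) →
  (∫ y in (-1 : ℝ)..1, r y ^ (m + 2) ≤ ((m : ℝ) + 2) * ∫ y in (-1 : ℝ)..1, y ^ 2 * r y ^ m) →
  aInt (m - 1) ^ m * (∫ y in (-1 : ℝ)..1, r y ^ m) ^ (m - 1) ≤
    (∫ y in (-1 : ℝ)..1, r y ^ (m - 1)) ^ m * aInt m ^ (m - 1) ∧
  ((∫ y in (-1 : ℝ)..1, r y ^ (m - 1)) ^ m * aInt m ^ (m - 1) ≤
    aInt (m - 1) ^ m * (∫ y in (-1 : ℝ)..1, r y ^ m) ^ (m - 1) →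
      ∫ y in (-1 : ℝ)..1, r y ^ m = aInt m)

omit [MeasurableSpace V] [BorelSpace V] in
theorem supp_contact {K : Set V} (hK : IsSymBody K) (hb : closedBall (0 : V) 1 ⊆ K)
    {u : V} (hu : ‖u‖ = 1) (hc : ∀ x ∈ K, inner ℝ x u ≤ 1) : supp K u = 1 := by
  have huK : u ∈ K := hb (by rw [mem_closedBall, dist_zero_right, hu])
  apply le_antisymm
  · obtain ⟨x, hx, hxe⟩ := exists_supp hK.compact ⟨u, huK⟩ u
    rw [← hxe]
    exact hc x hx
  · have h3 := le_supp hK.compact u huK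
    rwa [real_inner_self_eq_norm_sq, hu, one_pow] at h3

/-- The integrals of the normalized profile. -/
theorem integral_jprof (K : Set V) (u : V) (m j : ℕ) :
    ∫ y in (-1 : ℝ)..1, prof K u m y ^ j =
      kroot m ^ j * ∫ y in (-1 : ℝ)..1, jprof K u m y ^ j := by
  rw [← intervalIntegral.integral_const_mul]
  congr 1
  funext y
  have := (kroot_pos m).ne'
  unfold jprof
  rw [div_pow]
  field_simp

theorem jprof_ge {m : ℕ} (hm : 1 ≤ m) (hd : finrank ℝ V = m + 1) {K : Set V} (hK : IsSymBody K)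
    (hb : closedBall (0 : V) 1 ⊆ K) {u : V} (hu : ‖u‖ = 1) {y : ℝ} (hy : y ∈ Icc (-1 : ℝ) 1) :
    Real.sqrt (1 - y ^ 2) ≤ jprof K u m y := by
  have h2 := finrank_perp_gen hd hu
  have h1 := closedBall_subset_slice hb hu (abs_le.2 hy)
  have hS := slice_isCompact hK.compact u y
  have h3 : vol (closedBall (0 : ((ℝ ∙ u)ᗮ : Submodule ℝ V)) (Real.sqrt (1 - y ^ 2))) ≤
      vol (slice K u y) := vol_mono hS h1
  rw [vol_ball_radius h2 (Real.sqrt_nonneg _), ← jprof_pow hm K u y,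
    mul_comm (Statement.kappa m)] at h3
  have h4 := le_of_mul_le_mul_right h3 (kappa_pos m)
  exact (pow_le_pow_iff_left₀ (Real.sqrt_nonneg _) (jprof_nonneg _ _ _ _) (by omega)).1 h4

theorem exists_contact_prof {m : ℕ} (hm : 1 ≤ m) (hd : finrank ℝ V = m + 1) {K : Set V}
    (hK : IsSymBody K) (hJ : JohnPos K) :
    ∃ u : V, ‖u‖ = 1 ∧ supp K u = 1 ∧ ConcaveOn ℝ (Icc (-1) 1) (jprof K u m) ∧
      (∀ y, jprof K u m (-y) = jprof K u m y) ∧
      (∀ y ∈ Icc (-1 : ℝ) 1, Real.sqrt (1 - y ^ 2) ≤ jprof K u m y) ∧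
      (∫ y in (-1 : ℝ)..1, jprof K u m y ^ (m + 2) ≤
        ((m : ℝ) + 2) * ∫ y in (-1 : ℝ)..1, y ^ 2 * jprof K u m y ^ m) ∧
      vol K = Statement.kappa m * ∫ y in (-1 : ℝ)..1, jprof K u m y ^ m := by
  obtain ⟨u, hu, hc, hmo⟩ := john_contact hK hJ (by omega)
  have hsu := supp_contact hK hJ.1 hu hc
  have hk := kappa_pos m
  have hm0 : (0 : ℝ) < m := by exact_mod_cast hm
  refine ⟨u, hu, hsu, ?_, ?_, fun y hy => jprof_ge hm hd hK hJ.1 hu hy, ?_, ?_⟩
  · have h := prof_concave hm hd hK hu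
    rw [hsu] at h
    refine (h.smul (inv_nonneg.mpr (kroot_pos m).le)).congr fun y _ => ?_
    simp only [smul_eq_mul, jprof, div_eq_inv_mul]
  · intro y
    unfold jprof
    rw [prof_even hK hu]
  · have h1 := slice_moment_gen hm hd hK hu
    have h2 : ∫ x in K, (inner ℝ x u) ^ 2 = ∫ y : ℝ, y ^ 2 * vol (slice K u y) :=
      integral_slice hK.compact hu (fun t => t ^ 2) (by fun_prop)
    have hz : ∀ y : ℝ, 1 < |y| → vol (slice K u y) = 0 := fun y hy =>
      vol_slice_eq_zero hK.symm hu hc hy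
    have hz2 : ∀ y : ℝ, 1 < |y| → jprof K u m y = 0 := fun y hy => by
      have := hz y hy
      rw [← jprof_pow hm K u y] at this
      exact pow_eq_zero_iff (by omega : m ≠ 0) |>.1 ((mul_eq_zero.1 this).resolve_left hk.ne')
    have h3 : ∫ y : ℝ, y ^ 2 * vol (slice K u y) =
        Statement.kappa m * ∫ y in (-1 : ℝ)..1, y ^ 2 * jprof K u m y ^ m := by
      rw [integral_eq_of_support (f := fun y => y ^ 2 * vol (slice K u y))
        (fun y hy => by rw [hz y hy, mul_zero]), ← intervalIntegral.integral_const_mul]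
      congr 1
      funext y
      rw [← jprof_pow hm K u y]
      ring
    have h4 : ∫ y : ℝ, jprof K u m y ^ (m + 2) = ∫ y in (-1 : ℝ)..1, jprof K u m y ^ (m + 2) :=
      integral_eq_of_support (f := fun y => jprof K u m y ^ (m + 2))
        (fun y hy => by rw [hz2 y hy, zero_pow (by omega)])
    rw [h4] at h1
    rw [hd] at hmo
    rw [h2, h3] at h1 hmo
    set A := ∫ y in (-1 : ℝ)..1, jprof K u m y ^ (m + 2)
    set B := ∫ y in (-1 : ℝ)..1, y ^ 2 * jprof K u m y ^ m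
    push_cast at hmo
    have h5 : (m : ℝ) / (m + 2) * (Statement.kappa m * A) ≤ m * (Statement.kappa m * B) := by
      linarith
    have h6 : ((m : ℝ) * Statement.kappa m / (m + 2)) * A ≤
        ((m : ℝ) * Statement.kappa m / (m + 2)) * ((m + 2) * B) := by
      calc ((m : ℝ) * Statement.kappa m / (m + 2)) * A =
          (m : ℝ) / (m + 2) * (Statement.kappa m * A) := by ring
        _ ≤ m * (Statement.kappa m * B) := h5
        _ = _ := by field_simp
    exact le_of_mul_le_mul_left h6 (by positivity)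
  · rw [vol_eq_integral_slice hK.compact hu,
      integral_eq_of_support (f := fun y => vol (slice K u y))
        (fun y hy => vol_slice_eq_zero hK.symm hu hc hy), ← intervalIntegral.integral_const_mul]
    congr 1
    funext y
    rw [jprof_pow hm]

/-- A fixed point of the squared projection body operator in John position. -/
theorem fixed_john {m : ℕ} (hm : 2 ≤ m) (h1 : OneJohn m) (hd : finrank ℝ V = m + 1) {K : Set V}
    (hK : IsSymBody K) (hJ : JohnPos K) {c : ℝ} (hc0 : 0 < c)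
    (hP : ∀ u : V, ‖u‖ = 1 → ∀ S : Set ((ℝ ∙ u)ᗮ : Submodule ℝ V), IsBody S →
      c * vol S ^ (m - 1) ≤ vol (projBody S))
    {r : ℝ} (hr : 0 < r) (hM : projBody (projBody K) = r • K)
    (hv : vol (projBody K) = r * vol K) :
    c * (aInt (m - 1) ^ m / aInt m ^ (m - 1)) ≤ ratio K ∧
      (ratio K ≤ c * (aInt (m - 1) ^ m / aInt m ^ (m - 1)) → vol K = Statement.kappa (m + 1)) := by
  obtain ⟨u, hu, hsu, hconc, heven, hge, hmo, hvK⟩ := exists_contact_prof (by omega) hd hK hJ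
  obtain ⟨hA, hB⟩ := h1 _ hconc heven hge hmo
  have hdir := ratio_ge_dir hm hd hK hc0.le hu (hP u hu) hr hM hv
  have hrp : rprof K u m = prof K u m := by
    funext t
    unfold rprof
    rw [hsu, one_mul]
  rw [hrp, integral_jprof, integral_jprof] at hdir
  have a1 := aInt_pos (m - 1)
  have a2 := aInt_pos m
  have k0 := kroot_pos m
  have hvp := Main.vol_pos hK.toIsBody
  set I1 := ∫ y in (-1 : ℝ)..1, jprof K u m y ^ (m - 1) with hI1
  set I2 := ∫ y in (-1 : ℝ)..1, jprof K u m y ^ m with hI2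
  have hI2p : 0 < I2 := by
    rw [hvK] at hvp
    exact (mul_pos_iff_of_pos_left (kappa_pos m)).1 hvp
  have hdir2 : c * I1 ^ m ≤ ratio K * I2 ^ (m - 1) := by
    have e1 : c * (kroot m ^ (m - 1) * I1) ^ m = kroot m ^ ((m - 1) * m) * (c * I1 ^ m) := by
      rw [mul_pow, ← pow_mul]; ring
    have e2 : ratio K * (kroot m ^ m * I2) ^ (m - 1) =
        kroot m ^ ((m - 1) * m) * (ratio K * I2 ^ (m - 1)) := by
      rw [mul_pow, ← pow_mul, mul_comm m (m - 1)]; ring
    rw [e1, e2] at hdir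
    exact le_of_mul_le_mul_left hdir (by positivity)
  have hmain : c * (aInt (m - 1) ^ m / aInt m ^ (m - 1)) ≤ ratio K := by
    have h5 : (aInt m ^ (m - 1) * I2 ^ (m - 1)) * (c * (aInt (m - 1) ^ m / aInt m ^ (m - 1))) ≤
        (aInt m ^ (m - 1) * I2 ^ (m - 1)) * ratio K := by
      calc (aInt m ^ (m - 1) * I2 ^ (m - 1)) * (c * (aInt (m - 1) ^ m / aInt m ^ (m - 1))) =
          c * (aInt (m - 1) ^ m * I2 ^ (m - 1)) := by field_simp
        _ ≤ c * (I1 ^ m * aInt m ^ (m - 1)) := mul_le_mul_of_nonneg_left hA hc0.le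
        _ = aInt m ^ (m - 1) * (c * I1 ^ m) := by ring
        _ ≤ aInt m ^ (m - 1) * (ratio K * I2 ^ (m - 1)) :=
            mul_le_mul_of_nonneg_left hdir2 (by positivity)
        _ = _ := by ring
    exact le_of_mul_le_mul_left h5 (by positivity)
  refine ⟨hmain, fun hle => ?_⟩
  have h6 : I1 ^ m * aInt m ^ (m - 1) ≤ aInt (m - 1) ^ m * I2 ^ (m - 1) := by
    have h7 : c * (I1 ^ m * aInt m ^ (m - 1)) ≤ c * (aInt (m - 1) ^ m * I2 ^ (m - 1)) := by
      calc c * (I1 ^ m * aInt m ^ (m - 1)) = aInt m ^ (m - 1) * (c * I1 ^ m) := by ring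
        _ ≤ aInt m ^ (m - 1) * (ratio K * I2 ^ (m - 1)) :=
            mul_le_mul_of_nonneg_left hdir2 (by positivity)
        _ ≤ aInt m ^ (m - 1) * ((c * (aInt (m - 1) ^ m / aInt m ^ (m - 1))) * I2 ^ (m - 1)) := by
            gcongr
        _ = _ := by field_simp
    exact le_of_mul_le_mul_left h7 hc0
  rw [hvK, hB h6, kappa_succ]

end Vale.Agent.P237.J4
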