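import Vale.Agent.P237.J4.Geo
import Vale.Agent.P237.Alm.MainA

/-!
# P237: the induction step in John position, assembly
-/

open MeasureTheory Metric Set Module
open scoped Pointwise

namespace Vale.Agent.P237.J4

open AllN

variable {V : Type} [NormedAddCommGroup V] [InnerProductSpace ℝ V] [FiniteDimensional ℝ V]
  [MeasurableSpace V] [BorelSpace V]

theorem fixed_johnN {m : ℕ} (hm : 2 ≤ m) (h1 : OneJohn m) (hP : PettyIneq m)
    (hd : finrank ℝ V = m + 1) {K : Set V}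
    (hK : IsSymBody K) (hJ : JohnPos K) {r : ℝ} (hF : Fixed K r) :
    RC (m + 1) ≤ ratio K ∧ (ratio K ≤ RC (m + 1) → vol K = Statement.kappa (m + 1)) := by
  rw [RC_succ hm]
  exact fixed_john hm h1 hd hK hJ (RC_pos hm)
    (fun u hu => hP _ (finrank_perp_gen hd hu)) hF.pos hF.eq hF.vol

theorem ratio_ge_of_min {m : ℕ} (hm : 2 ≤ m) (h1 : OneJohn m) (hP : PettyIneq m)
    (hd : finrank ℝ V = m + 1) {K : Set V} (hK : IsSymBody K)
    (hmin : ∀ L : Set V, IsSymBody L → ratio K ≤ ratio L) : RC (m + 1) ≤ ratio K := by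
  have hd0 : 0 < finrank ℝ V := by omega
  obtain ⟨T, hT⟩ := exists_johnPos hK
  have hK1 : IsSymBody (T '' K) := IsSymBody.image T hK
  have hR : ratio (T '' K) = ratio K := ratio_image T hK.toIsBody hd0
  have hle : ratio (T '' K) ≤ ratio (projBody (T '' K)) := by
    rw [hR]; exact hmin _ (projBody_isSymBody hK1.toIsBody)
  obtain ⟨r, hr, hM, hv⟩ := Main.fixed_of_ratio_le hK1 hd0 hle
  rw [← hR]
  exact (fixed_johnN hm h1 hP hd hK1 hT ⟨hr, hM, hv⟩).1

/-- Petty's inequality, ratio form. -/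
theorem petty_ratio_J {m : ℕ} (hm : 2 ≤ m) (h1 : OneJohn m) (hP : PettyIneq m)
    (hd : finrank ℝ V = m + 1) {K : Set V} (hK : IsBody K) : RC (m + 1) ≤ ratio K := by
  have hd0 : 0 < finrank ℝ V := by omega
  obtain ⟨K₀, hK₀, hmin⟩ := exists_global_min (V := V) hd0
  calc RC (m + 1) ≤ ratio K₀ := ratio_ge_of_min hm h1 hP hd hK₀ hmin
    _ ≤ ratio (projBody K) := hmin _ (projBody_isSymBody hK)
    _ ≤ ratio K := Main.ratio_projBody_le hK hd0

theorem petty_ineq_J {m : ℕ} (hm : 2 ≤ m) (h1 : OneJohn m) (hP : PettyIneq m)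
    (hd : finrank ℝ V = m + 1) {K : Set V} (hK : IsBody K) :
    RC (m + 1) * vol K ^ m ≤ vol (projBody K) := by
  have h := petty_ratio_J hm h1 hP hd hK
  have p1 := Main.vol_pos hK
  unfold ratio at h
  rw [hd, le_div_iff₀ (by positivity)] at h
  simpa using h

theorem pettyIneq_succ_J {m : ℕ} (hm : 2 ≤ m) (h1 : OneJohn m) (hP : PettyIneq m) :
    PettyIneq (m + 1) := by
  intro W _ _ _ _ _ hd S hS
  exact petty_ineq_J hm h1 hP hd hS

/-- An extremal symmetric body is an ellipsoid. -/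
theorem sym_eq_J {m : ℕ} (hm : 2 ≤ m) (h1 : OneJohn m) (hP : PettyIneq m)
    (hd : finrank ℝ V = m + 1) {K : Set V} (hK : IsSymBody K) (h : ratio K ≤ RC (m + 1)) :
    ∃ T : V ≃ₗ[ℝ] V, K = T '' closedBall (0 : V) 1 := by
  have hd0 : 0 < finrank ℝ V := by omega
  obtain ⟨T, hT⟩ := exists_johnPos hK
  have hK1 : IsSymBody (T '' K) := IsSymBody.image T hK
  have hR : ratio (T '' K) = ratio K := ratio_image T hK.toIsBody hd0
  have hle : ratio (T '' K) ≤ ratio (projBody (T '' K)) := by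
    rw [hR]
    exact h.trans (petty_ratio_J hm h1 hP hd (Main.projBody_isBody hK1.toIsBody))
  obtain ⟨r, hr, hM, hv⟩ := Main.fixed_of_ratio_le hK1 hd0 hle
  have hvol := (fixed_johnN hm h1 hP hd hK1 hT ⟨hr, hM, hv⟩).2 (by rw [hR]; exact h)
  have hball : T '' K = closedBall (0 : V) 1 := by
    refine eq_ball_of_vol hK1.toIsBody hT.1 ?_
    rw [vol_unitBall hd]; exact hvol.le
  refine ⟨T.symm, ?_⟩
  rw [← hball, ← image_comp]
  simp

/-- An extremal body is an ellipsoid. -/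
theorem petty_eq_J {m : ℕ} (hm : 2 ≤ m) (h1 : OneJohn m) (hP : PettyIneq m)
    (hd : finrank ℝ V = m + 1) {K : Set V} (hK : IsBody K)
    (h : vol (projBody K) = RC (m + 1) * vol K ^ m) :
    ∃ (a : V) (T : V ≃ₗ[ℝ] V), K = (fun x => a + T x) '' closedBall (0 : V) 1 := by
  have hd0 : 0 < finrank ℝ V := by omega
  have p1 := Main.vol_pos hK
  have hR : ratio K = RC (m + 1) := by
    unfold ratio
    rw [hd, h, div_eq_iff (by positivity), Nat.add_sub_cancel]
  obtain ⟨c, r, hr, hcr⟩ := Main.petty_contract_eq_of_ratio hK hd0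
    (by rw [hR]; exact petty_ratio_J hm h1 hP hd (Main.projBody_isBody hK))
  have hM : IsSymBody (projBody (projBody K)) := projBody_isSymBody (Main.projBody_isBody hK)
  have hK' : (fun x => (r⁻¹ • c) + x) '' K = r⁻¹ • projBody (projBody K) := by
    rw [hcr]
    ext y
    simp only [mem_image, mem_smul_set]
    constructor
    · rintro ⟨x, hx, rfl⟩
      exact ⟨c + r • x, ⟨r • x, ⟨x, hx, rfl⟩, rfl⟩, by
        rw [smul_add, smul_smul, inv_mul_cancel₀ hr.ne', one_smul]⟩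
    · rintro ⟨z, ⟨w, ⟨x, hx, rfl⟩, rfl⟩, rfl⟩
      exact ⟨x, hx, by rw [smul_add, smul_smul, inv_mul_cancel₀ hr.ne', one_smul]⟩
  have hsym : IsSymBody ((fun x => (r⁻¹ • c) + x) '' K) := by
    have hb : IsBody ((fun x => (r⁻¹ • c) + x) '' K) := IsBody.translate hK _
    refine ⟨hb, ?_⟩
    intro x hx
    rw [hK'] at hx ⊢
    obtain ⟨z, hz, rfl⟩ := hx
    exact ⟨-z, hM.symm z hz, by simp⟩
  obtain ⟨T, hT⟩ := sym_eq_J hm h1 hP hd hsym (by rw [ratio_translate, hR])
  refine ⟨-(r⁻¹ • c), T, ?_⟩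
  have h2 : (fun x => -(r⁻¹ • c) + x) '' ((fun x => (r⁻¹ • c) + x) '' K) = K := by
    rw [← image_comp]
    simp
  rw [← h2, hT, ← image_comp]
  rfl

open Statement in
/-- The induction step. -/
theorem pettyIn_succ_J {m : ℕ} (hm : 2 ≤ m) (h1 : OneJohn m) (hP : PettyIneq m)
    (hd : finrank ℝ V = m + 1) : PettyIn V (m + 1) := by
  intro K L hK hL
  have hK' : IsBody K := ⟨hK.1, hK.2.1, hK.2.2⟩
  obtain rfl := (isProjectionBody_iff hK).1 hL
  have hc : kappa (m + 1 - 1) ^ (m + 1) * kappa (m + 1) ^ (2 - ((m + 1 : ℕ) : ℤ)) *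
      Statement.vol K ^ (m + 1 - 1) = RC (m + 1) * P237.vol K ^ m := rfl
  rw [hc, isEllipsoid_iff]
  refine ⟨petty_ineq_J hm h1 hP hd hK', ?_, ?_⟩
  · intro h
    exact petty_eq_J hm h1 hP hd hK' h
  · rintro ⟨a, T, rfl⟩
    exact petty_ellipsoid_N hm hd a T

/-- The inequality in dimension four. -/
theorem pettyIneq_four_of (h3 : OneJohn 3) : PettyIneq 4 :=
  pettyIneq_succ_J (by norm_num) h3 pettyIneq_three

/-- Petty's conjecture in dimension four. -/
theorem petty_four_of (h3 : OneJohn 3) (hd : finrank ℝ V = 4) : Statement.PettyIn V 4 :=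
  pettyIn_succ_J (by norm_num) h3 pettyIneq_three hd

/-- The inequality in dimension five. -/
theorem pettyIneq_five_of (h3 : OneJohn 3) (h4 : OneJohn 4) : PettyIneq 5 :=
  pettyIneq_succ_J (by norm_num) h4 (pettyIneq_four_of h3)

/-- Petty's conjecture in dimension five. -/
theorem petty_five_of (h3 : OneJohn 3) (h4 : OneJohn 4) (hd : finrank ℝ V = 5) :
    Statement.PettyIn V 5 :=
  pettyIn_succ_J (by norm_num) h4 (pettyIneq_four_of h3) hd

theorem pettyC_one_of {n : ℕ} (h : PettyIneq n) : Alm.PettyC n 1 := by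
  intro W _ _ _ _ _ hd S hS
  rw [one_mul]
  exact h W hd S hS

end Vale.Agent.P237.J4
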