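import Mathlib
import Vale.Agent.P237.Moment
import Vale.Agent.P237.AllN.ConstN
import Vale.Agent.P237.AllN.ProfN

/-!
# P237: second moments of slices in all dimensions
-/

open MeasureTheory Metric Set Module
open scoped Pointwise

namespace Vale.Agent.P237.J4

open AllN

section Ball

variable {W : Type*} [NormedAddCommGroup W] [InnerProductSpace ℝ W] [FiniteDimensional ℝ W]
  [MeasurableSpace W] [BorelSpace W]

/-- Integral of `min (‖z‖² - r², 0)`. -/
theorem integral_min_gen {m : ℕ} (hm : 1 ≤ m) (hd : finrank ℝ W = m) {r : ℝ} (hr : 0 ≤ r) :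
    ∫ z : W, min (‖z‖ ^ 2 - r ^ 2) 0 =
      - (Statement.kappa m * (2 / ((m : ℝ) + 2)) * r ^ (m + 2)) := by
  have : Nontrivial W := Module.nontrivial_of_finrank_pos (R := ℝ) (by omega)
  have h := integral_fun_norm_addHaar (volume : Measure W) (fun s : ℝ => min (s ^ 2 - r ^ 2) 0)
  have h4 : (volume : Measure W).real (ball 0 1) = Statement.kappa m := by
    rw [← vol_unitBall hd]
    unfold vol
    rw [Measure.addHaar_closedBall_eq_addHaar_ball]
    rfl
  rw [h, hd, h4]
  have hm0 : (m : ℝ) ≠ 0 := by positivity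
  have h3 : ∫ y in Ioi (0:ℝ), y ^ (m - 1) • min (y ^ 2 - r ^ 2) 0 =
      - ((2 / ((m : ℝ) + 2)) * r ^ (m + 2) / m) := by
    have e1 : ∫ y in Ioi (0:ℝ), y ^ (m - 1) • min (y ^ 2 - r ^ 2) 0 =
        ∫ y in Ioc (0:ℝ) r, y ^ (m - 1) * (y ^ 2 - r ^ 2) := by
      rw [← integral_indicator measurableSet_Ioi, ← integral_indicator measurableSet_Ioc]
      congr 1
      funext y
      by_cases hy : 0 < y
      · rw [indicator_of_mem (show y ∈ Ioi (0:ℝ) from hy)]
        by_cases hy2 : y ≤ r
        · rw [indicator_of_mem (show y ∈ Ioc (0:ℝ) r from ⟨hy, hy2⟩), min_eq_left]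
          · simp
          · nlinarith
        · rw [indicator_of_notMem (show y ∉ Ioc (0:ℝ) r from fun h => hy2 h.2), min_eq_right]
          · simp
          · push Not at hy2
            nlinarith
      · rw [indicator_of_notMem (show y ∉ Ioi (0:ℝ) from hy),
          indicator_of_notMem (show y ∉ Ioc (0:ℝ) r from fun h => hy h.1)]
    rw [e1, ← intervalIntegral.integral_of_le hr]
    obtain ⟨k, rfl⟩ : ∃ k, m = k + 1 := ⟨m - 1, by omega⟩
    have hder : ∀ y ∈ uIcc 0 r, HasDerivAt (fun y : ℝ => y ^ (k + 3) / ((k : ℝ) + 3) -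
        r ^ 2 * y ^ (k + 1) / ((k : ℝ) + 1)) (y ^ k * (y ^ 2 - r ^ 2)) y := by
      intro y _
      have := ((hasDerivAt_pow (k + 3) y).div_const ((k : ℝ) + 3)).sub
        (((hasDerivAt_pow (k + 1) y).const_mul (r ^ 2)).div_const ((k : ℝ) + 1))
      refine this.congr_deriv ?_
      have a1 : (k : ℝ) + 3 ≠ 0 := by positivity
      have a2 : (k : ℝ) + 1 ≠ 0 := by positivity
      simp only [show k + 3 - 1 = k + 2 by omega, show k + 1 - 1 = k by omega]
      push_cast
      field_simp
      ring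
    simp only [show k + 1 - 1 = k by omega]
    rw [intervalIntegral.integral_eq_sub_of_hasDerivAt hder (by
      have : Continuous (fun y : ℝ => y ^ k * (y ^ 2 - r ^ 2)) := by fun_prop
      exact this.intervalIntegrable _ _)]
    have a1 : (k : ℝ) + 3 ≠ 0 := by positivity
    have a2 : (k : ℝ) + 1 ≠ 0 := by positivity
    have a3 : ((k + 1 : ℕ) : ℝ) + 2 = (k : ℝ) + 3 := by push_cast; ring
    have a4 : ((k + 1 : ℕ) : ℝ) = (k : ℝ) + 1 := by push_cast; ring
    rw [a3, a4]
    simp only [zero_pow (show k + 3 ≠ 0 by omega), zero_pow (show k + 1 ≠ 0 by omega)]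
    field_simp
    ring
  rw [h3]
  simp only [nsmul_eq_mul, smul_eq_mul]
  field_simp

/-- Among sets of given volume the ball has the least second moment. -/
theorem moment_gen {m : ℕ} (hm : 1 ≤ m) (hd : finrank ℝ W = m) {S : Set W} (hS : IsCompact S)
    {r : ℝ} (hr : 0 ≤ r) (hv : Statement.kappa m * r ^ m = vol S) :
    (m : ℝ) / (m + 2) * (Statement.kappa m * r ^ (m + 2)) ≤ ∫ z in S, ‖z‖ ^ 2 := by
  have hI := integral_min_gen (W := W) hm hd hr
  have hr2 : 0 ≤ r ^ 2 := sq_nonneg r
  have hcont : Continuous (fun z : W => min (‖z‖ ^ 2 - r ^ 2) 0) := by fun_prop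
  have hint : Integrable (fun z : W => min (‖z‖ ^ 2 - r ^ 2) 0) := by
    refine hcont.integrable_of_hasCompactSupport ?_
    refine HasCompactSupport.intro (isCompact_closedBall (0 : W) r) ?_
    intro z hz
    rw [mem_closedBall_zero_iff, not_le] at hz
    apply min_eq_right
    nlinarith
  have h1 : ∫ z : W, min (‖z‖ ^ 2 - r ^ 2) 0 ≤ ∫ z in S, min (‖z‖ ^ 2 - r ^ 2) 0 := by
    rw [← integral_indicator hS.measurableSet]
    refine integral_mono hint (hint.indicator hS.measurableSet) ?_
    intro z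
    by_cases hz : z ∈ S
    · simp only [indicator_of_mem hz]; exact le_rfl
    · simp only [indicator_of_notMem hz]; exact min_le_right _ _
  have hc1 : IntegrableOn (fun z : W => ‖z‖ ^ 2) S :=
    (by fun_prop : Continuous (fun z : W => ‖z‖ ^ 2)).continuousOn.integrableOn_compact hS
  have hc2 : IntegrableOn (fun _ : W => r ^ 2) S :=
    continuousOn_const.integrableOn_compact hS
  have h2 : ∫ z in S, min (‖z‖ ^ 2 - r ^ 2) 0 ≤ ∫ z in S, (‖z‖ ^ 2 - r ^ 2) :=
    integral_mono hint.integrableOn (hc1.sub hc2) fun z => min_le_left _ _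
  rw [integral_sub hc1 hc2, setIntegral_const, smul_eq_mul] at h2
  have h3 : (volume : Measure W).real S = vol S := rfl
  rw [h3, ← hv] at h2
  rw [hI] at h1
  have hmm : (m : ℝ) + 2 ≠ 0 := by positivity
  have e1 : (m : ℝ) / (m + 2) * (Statement.kappa m * r ^ (m + 2)) =
      - (Statement.kappa m * (2 / ((m : ℝ) + 2)) * r ^ (m + 2)) +
        Statement.kappa m * r ^ m * r ^ 2 := by
    field_simp
    ring
  rw [e1]
  linarith

end Ball

section Space

variable {V : Type*} [NormedAddCommGroup V] [InnerProductSpace ℝ V] [FiniteDimensional ℝ V]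
  [MeasurableSpace V] [BorelSpace V]

/-- the `m`-th root of the volume of the unit ball -/
noncomputable def kroot (m : ℕ) : ℝ := Statement.kappa m ^ (1 / (m : ℝ))

theorem kroot_pos (m : ℕ) : 0 < kroot m := Real.rpow_pos_of_pos (kappa_pos m) _

theorem kroot_pow {m : ℕ} (hm : 1 ≤ m) : kroot m ^ m = Statement.kappa m := by
  unfold kroot
  rw [← Real.rpow_natCast, ← Real.rpow_mul (kappa_pos m).le]
  have hm' : (m : ℝ) ≠ 0 := by positivity
  rw [one_div, inv_mul_cancel₀ hm', Real.rpow_one]

/-- The profile normalized by the unit ball. -/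
noncomputable def jprof (K : Set V) (u : V) (m : ℕ) (y : ℝ) : ℝ := prof K u m y / kroot m

theorem jprof_nonneg (K : Set V) (u : V) (m : ℕ) (y : ℝ) : 0 ≤ jprof K u m y :=
  div_nonneg (prof_nonneg _ _ _ _) (kroot_pos m).le

theorem jprof_pow {m : ℕ} (hm : 1 ≤ m) (K : Set V) (u : V) (y : ℝ) :
    Statement.kappa m * jprof K u m y ^ m = vol (slice K u y) := by
  unfold jprof
  have := (kroot_pos m).ne'
  rw [div_pow, prof_pow hm, kroot_pow hm]
  have := (kappa_pos m).ne'
  field_simp

theorem slice_moment_gen {m : ℕ} (hm : 1 ≤ m) (hd : finrank ℝ V = m + 1) {K : Set V}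
    (hK : IsSymBody K) {u : V} (hu : ‖u‖ = 1) :
    (∫ x in K, (inner ℝ x u) ^ 2) +
      (m : ℝ) / (m + 2) * (Statement.kappa m * ∫ y : ℝ, jprof K u m y ^ (m + 2)) ≤
      ∫ x in K, ‖x‖ ^ 2 := by
  have h2 := finrank_perp_gen hd hu
  obtain ⟨i1, e1⟩ := slice_fubini hK.compact hu (fun x => ‖x‖ ^ 2) (by fun_prop)
  obtain ⟨i2, e2⟩ := slice_fubini hK.compact hu (fun x => (inner ℝ x u) ^ 2)
    ((continuous_id.inner continuous_const).pow 2)
  have i3 : Integrable (fun y : ℝ => (m : ℝ) / (m + 2) *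
      (Statement.kappa m * jprof K u m y ^ (m + 2))) := by
    have h := prof_pow_integrable hm hd hK hu (k := m + 2) (by omega)
    have h' := ((h.div_const (kroot m ^ (m + 2))).const_mul (Statement.kappa m)).const_mul
      ((m : ℝ) / (m + 2))
    refine h'.congr (Filter.Eventually.of_forall fun y => ?_)
    simp only [jprof, div_pow]
  rw [e1, e2, ← integral_const_mul, ← integral_const_mul, ← integral_add i2 i3]
  refine integral_mono (i2.add i3) i1 ?_
  intro y
  have hS := slice_isCompact hK.compact u y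
  have h3 := moment_gen hm h2 hS (jprof_nonneg K u m y) (jprof_pow hm K u y)
  simp only [inner_prod_point hu, norm_sq_prod_point hu]
  have hc1 : IntegrableOn (fun z : ((ℝ ∙ u)ᗮ : Submodule ℝ V) => ‖z‖ ^ 2) (slice K u y) :=
    (by fun_prop : Continuous (fun z : ((ℝ ∙ u)ᗮ : Submodule ℝ V) =>
      ‖z‖ ^ 2)).continuousOn.integrableOn_compact hS
  have hc2 : IntegrableOn (fun _ : ((ℝ ∙ u)ᗮ : Submodule ℝ V) => y ^ 2) (slice K u y) :=
    continuousOn_const.integrableOn_compact hS
  rw [integral_add hc1 hc2]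
  linarith

end Space

end Vale.Agent.P237.J4
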